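import Vale.Agent.P032X.H355.Pl
import Vale.Agent.P032W.H355.LFcirc
import Vale.Agent.P032X.S5.H229.K5

/-!
# P032: six-coloured planar maps, top of the theorem

`MapC U T`: connected frame of a six-coloured planar map (no minimality); near every point `x` all
points of colour `i` are connected to `x` inside the closure of `U i`.
`MapFr U T`: the frame with minimality at the points with at least four colours.
`no_map_of`: no six-coloured planar map, from the blocks `h6` (no six-coloured point, connected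
frame), `h5` (no five-coloured point) and `hD` (no two-pair point).
-/

open Set Filter Topology Metric

noncomputable section

namespace Vale.Agent.P032.H355

open Vale.Agent.P032.Six

/-- the connected frame of a six-coloured planar map -/
structure MapC (U : Fin 6 → Set ℂ) (T : ℂ → Set (Fin 6)) : Prop where
  irr : Irr U T
  lf : LF3 U T
  ctn : ∀ x, ∀ᶠ w in 𝓝 x, ∀ i ∈ T w, Cnn U x w i

theorem MapC.ct {U : Fin 6 → Set ℂ} {T : ℂ → Set (Fin 6)} (h : MapC U T) (x : ℂ) (i : Fin 6)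
    (hi : i ∈ T x) : Cn U x i := ((h.ctn x).self_of_nhds i hi).cn

/-- the frame of a six-coloured planar map -/
structure MapFr (U : Fin 6 → Set ℂ) (T : ℂ → Set (Fin 6)) : Prop where
  irr : Irr U T
  mn : Mn U T
  lf : LF3 U T
  ct : ∀ x, ∀ i ∈ T x, Cn U x i

/-- the coordinates of the named points -/
def Cf : Set ℂ := {c | ∃ a b : ℤ, a.natAbs ≤ 8 ∧ b.natAbs ≤ 8 ∧ c = a + b * cis (1 * (Real.pi / 3))}

theorem Cf_finite : Cf.Finite := by
  have h1 : Cf ⊆ (fun p : ℤ × ℤ => (p.1 : ℂ) + p.2 * cis (1 * (Real.pi / 3))) ''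
      (Icc (-8 : ℤ) 8 ×ˢ Icc (-8 : ℤ) 8) := by
    rintro c ⟨a, b, ha, hb, rfl⟩
    exact ⟨(a, b), ⟨⟨by omega, by omega⟩, ⟨by omega, by omega⟩⟩, rfl⟩
  exact (((Set.finite_Icc _ _).prod (Set.finite_Icc _ _)).image _).subset h1

/-- **The frames of a six-coloured planar map.** -/
theorem PlMap.exists_frame' {ι κ : Type*} {g : ι → ℝ → EuclideanSpace ℝ (Fin 2)}
    {G : κ → Set (EuclideanSpace ℝ (Fin 2))} (h : PlMap g G) (c : κ → Fin 6)
    (hc : ∀ f f', c f = c f' → ∀ x ∈ G f, ∀ y ∈ G f', dist x y ≠ 1) :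
    ∃ U T T', MapFr U T ∧ MapC U T' ∧
      (∀ z, 4 ≤ (T z).ncard → (∀ᶠ w in 𝓝 z, T w = T' w) ∨ (T z).ncard < (T' z).ncard) ∧
      (∀ x ∈ XX U, T x ⊆ T' x) ∧
      (∀ z v, 4 ≤ (T z).ncard → 4 ≤ (T v).ncard → dist v z = 1 → ∀ c ∈ Cf,
        (∀ᶠ w in 𝓝 (z + (v - z) * c), T w = T' w) ∨
        (4 ≤ (T' (z + (v - z) * c)).ncard ∧
          (T (z + (v - z) * c)).ncard < (T' (z + (v - z) * c)).ncard)) ∧
      ∀ x, ∃ t ∈ 𝓝 x, ({y | y ∈ XX U ∧ T y ≠ T' y} ∩ t).Finite := by
  let φ : ℂ ≃ₗᵢ[ℝ] EuclideanSpace ℝ (Fin 2) := Complex.orthonormalBasisOneI.repr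
  obtain ⟨U, T, T', ⟨h1, h2, -, h3, h4⟩, ⟨h5, h6, h7⟩, h8, h9⟩ := (h.toPMap φ).exists_frame c
    (fun f f' hff x hx y hy => by
      rw [← φ.dist_map]
      exact hc f f' hff _ hx _ hy) Cf_finite
  exact ⟨U, T, T', ⟨h1, h2, h3, h4⟩, ⟨h5, h6, h7⟩, h8, h9⟩

theorem PlMap.exists_frame {ι κ : Type*} {g : ι → ℝ → EuclideanSpace ℝ (Fin 2)}
    {G : κ → Set (EuclideanSpace ℝ (Fin 2))} (h : PlMap g G) (c : κ → Fin 6)
    (hc : ∀ f f', c f = c f' → ∀ x ∈ G f, ∀ y ∈ G f', dist x y ≠ 1) :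
    ∃ U T T', MapFr U T ∧ MapC U T' ∧
      ∀ z, 4 ≤ (T z).ncard → (∀ᶠ w in 𝓝 z, T w ⊆ T' w) ∨ (T z).ncard < (T' z).ncard := by
  obtain ⟨U, T, T', h1, h2, h3, -⟩ := h.exists_frame' c hc
  exact ⟨U, T, T', h1, h2, fun z hz => (h3 z hz).imp_left fun h4 => h4.mono fun w hw => hw.subset⟩

/-- every frame has a two-pair point next to a four-coloured point -/
theorem MapFr.exists_dpair {U : Fin 6 → Set ℂ} {T : ℂ → Set (Fin 6)} (h : MapFr U T)
    (h4 : ∀ z, (T z).ncard ≤ 4) :
    ∃ z a b c d, DPt T z a b c d ∧ ∃ y, dist y z = 1 ∧ (T y).ncard = 4 :=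
  h.irr.exists_dpair' h.mn h4

/-- the frame of a six-coloured planar map without points of more than four colours -/
theorem PlMap.exists_frame4 (h6 : ∀ U T, MapC U T → ∀ z, ¬ ∀ i, i ∈ T z)
    (h5 : ∀ U T, MapFr U T → (∀ z, (T z).ncard ≤ 5) →
      (∀ z, 5 ≤ (T z).ncard → ∀ᶠ w in 𝓝 z, ∀ i ∈ T w, Cnn U z w i) → ∀ z, (T z).ncard ≤ 4)
    {ι κ : Type*} {g : ι → ℝ → EuclideanSpace ℝ (Fin 2)}
    {G : κ → Set (EuclideanSpace ℝ (Fin 2))} (h : PlMap g G) (c : κ → Fin 6)
    (hc : ∀ f f', c f = c f' → ∀ x ∈ G f, ∀ y ∈ G f', dist x y ≠ 1) :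
    ∃ U T, MapFr U T ∧ ∀ z, (T z).ncard ≤ 4 := by
  obtain ⟨U, T, T', hU, hU', halt⟩ := h.exists_frame c hc
  have h55 : ∀ z, (T' z).ncard ≤ 5 := by
    intro z
    by_contra hc
    push Not at hc
    have h1 : T' z = univ := Set.eq_of_subset_of_ncard_le (subset_univ _) (by
      rw [Set.ncard_univ, Nat.card_eq_fintype_card, Fintype.card_fin]
      omega) (Set.toFinite _)
    exact h6 U T' hU' z fun i => by rw [h1]; exact mem_univ i
  refine ⟨U, T, hU, h5 U T hU (fun z => ?_) (fun z hz => ?_)⟩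
  · by_contra hc
    push Not at hc
    rcases halt z (by omega) with h1 | h1
    · have h2 := Set.ncard_le_ncard h1.self_of_nhds (Set.toFinite _)
      have := h55 z
      omega
    · have := h55 z
      omega
  · rcases halt z (by omega) with h1 | h1
    · filter_upwards [h1, hU'.ctn z] with w hw1 hw2 i hi
      exact hw2 i (hw1 hi)
    · have := h55 z
      omega

/-- **No six-coloured planar map**, from the blocks on points with six and with five colours and on
two-pair points -/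
theorem no_map_of (h6 : ∀ U T, MapC U T → ∀ z, ¬ ∀ i, i ∈ T z)
    (h5 : ∀ U T, MapFr U T → (∀ z, (T z).ncard ≤ 5) →
      (∀ z, 5 ≤ (T z).ncard → ∀ᶠ w in 𝓝 z, ∀ i ∈ T w, Cnn U z w i) → ∀ z, (T z).ncard ≤ 4)
    (hD : ∀ U T, MapFr U T → (∀ z, (T z).ncard ≤ 4) → ∀ z a b c d, DPt T z a b c d → False)
    {ι κ : Type*} {g : ι → ℝ → EuclideanSpace ℝ (Fin 2)}
    {G : κ → Set (EuclideanSpace ℝ (Fin 2))} (h : PlMap g G) (c : κ → Fin 6) :
    ∃ f f', c f = c f' ∧ ∃ x ∈ G f, ∃ y ∈ G f', dist x y = 1 := by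
  by_contra hcon
  push Not at hcon
  obtain ⟨U, T, hU, h44⟩ := PlMap.exists_frame4 h6 h5 h c hcon
  obtain ⟨z, a, b, c', d, hz, -⟩ := hU.exists_dpair h44
  exact hD U T hU h44 z a b c' d hz

/-- **No six-coloured planar map**, from the blocks on points with six and with five colours and on
pairs of four-coloured points at distance one, one of them a two-pair point -/
theorem no_map_of_pairs (h6 : ∀ U T, MapC U T → ∀ z, ¬ ∀ i, i ∈ T z)
    (h5 : ∀ U T, MapFr U T → (∀ z, (T z).ncard ≤ 5) →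
      (∀ z, 5 ≤ (T z).ncard → ∀ᶠ w in 𝓝 z, ∀ i ∈ T w, Cnn U z w i) → ∀ z, (T z).ncard ≤ 4)
    (h44 : ∀ U T, MapFr U T → (∀ z, (T z).ncard ≤ 4) → ∀ z a b c d, DPt T z a b c d →
      ∀ v, dist v z = 1 → (T v).ncard = 4 → False)
    {ι κ : Type*} {g : ι → ℝ → EuclideanSpace ℝ (Fin 2)}
    {G : κ → Set (EuclideanSpace ℝ (Fin 2))} (h : PlMap g G) (c : κ → Fin 6) :
    ∃ f f', c f = c f' ∧ ∃ x ∈ G f, ∃ y ∈ G f', dist x y = 1 := by
  by_contra hcon
  push Not at hcon
  obtain ⟨U, T, hU, h4⟩ := PlMap.exists_frame4 h6 h5 h c hcon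
  obtain ⟨z, a, b, c', d, hz, v, hv, hv4⟩ := hU.exists_dpair h4
  exact h44 U T hU h4 z a b c' d hz v hv hv4

/-- the frame of a six-coloured planar map without points of more than four colours, if five-coloured
points are excluded in every connected frame: near the four-coloured points all points of a colour are
connected to the point -/
theorem PlMap.exists_frame4c (h6 : ∀ U T, MapC U T → ∀ z, ¬ ∀ i, i ∈ T z)
    (h5 : ∀ U T, MapC U T → (∀ z, (T z).ncard ≤ 5) → ∀ z, (T z).ncard ≤ 4)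
    {ι κ : Type*} {g : ι → ℝ → EuclideanSpace ℝ (Fin 2)}
    {G : κ → Set (EuclideanSpace ℝ (Fin 2))} (h : PlMap g G) (c : κ → Fin 6)
    (hc : ∀ f f', c f = c f' → ∀ x ∈ G f, ∀ y ∈ G f', dist x y ≠ 1) :
    ∃ U T, MapFr U T ∧ (∀ z, (T z).ncard ≤ 4) ∧
      ∀ z, 4 ≤ (T z).ncard → ∀ᶠ w in 𝓝 z, ∀ i ∈ T w, Cnn U z w i := by
  obtain ⟨U, T, T', hU, hU', halt⟩ := h.exists_frame c hc
  have h44 : ∀ z, (T' z).ncard ≤ 4 := by
    refine h5 U T' hU' fun z => ?_
    by_contra hc
    push Not at hc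
    have h1 : T' z = univ := Set.eq_of_subset_of_ncard_le (subset_univ _) (by
      rw [Set.ncard_univ, Nat.card_eq_fintype_card, Fintype.card_fin]
      omega) (Set.toFinite _)
    exact h6 U T' hU' z fun i => by rw [h1]; exact mem_univ i
  refine ⟨U, T, hU, fun z => ?_, fun z hz => ?_⟩
  · by_contra hc
    push Not at hc
    have h2 := h44 z
    rcases halt z (by omega) with h1 | h1
    · have h3 := Set.ncard_le_ncard h1.self_of_nhds (Set.toFinite _)
      omega
    · omega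
  · have h2 := h44 z
    rcases halt z (by omega) with h1 | h1
    · filter_upwards [h1, hU'.ctn z] with w hw1 hw2 i hi
      exact hw2 i (hw1 hi)
    · omega

/-- **No six-coloured planar map**, from blocks which exclude points with six and with five colours
in every connected frame, and pairs of four-coloured points at distance one, one of them a two-pair
point, in frames which are connected near the four-coloured points -/
theorem no_map_of_pairs_c (h6 : ∀ U T, MapC U T → ∀ z, ¬ ∀ i, i ∈ T z)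
    (h5 : ∀ U T, MapC U T → (∀ z, (T z).ncard ≤ 5) → ∀ z, (T z).ncard ≤ 4)
    (h44 : ∀ U T, MapFr U T → (∀ z, (T z).ncard ≤ 4) →
      (∀ z, 4 ≤ (T z).ncard → ∀ᶠ w in 𝓝 z, ∀ i ∈ T w, Cnn U z w i) →
      ∀ z a b c d, DPt T z a b c d → ∀ v, dist v z = 1 → (T v).ncard = 4 → False)
    {ι κ : Type*} {g : ι → ℝ → EuclideanSpace ℝ (Fin 2)}
    {G : κ → Set (EuclideanSpace ℝ (Fin 2))} (h : PlMap g G) (c : κ → Fin 6) :
    ∃ f f', c f = c f' ∧ ∃ x ∈ G f, ∃ y ∈ G f', dist x y = 1 := by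
  by_contra hcon
  push Not at hcon
  obtain ⟨U, T, hU, h4, hct⟩ := PlMap.exists_frame4c h6 h5 h c hcon
  obtain ⟨z, a, b, c', d, hz, v, hv, hv4⟩ := hU.exists_dpair h4
  exact h44 U T hU h4 hct z a b c' d hz v hv hv4

/-- five-coloured points may have clean unit circles: if no point with four colours has distance one
from a point with five colours, there is a two-pair point at distance one from a four-coloured point -/
theorem MapFr.exists_pair5 {U : Fin 6 → Set ℂ} {T : ℂ → Set (Fin 6)} (h : MapFr U T)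
    (h5 : ∀ z, (T z).ncard ≤ 5)
    (hX : ∀ z v, dist v z = 1 → 5 ≤ (T z).ncard → (T v).ncard ≤ 3) :
    ∃ z a b c d, DPt T z a b c d ∧ ∃ v, dist v z = 1 ∧ (T v).ncard = 4 := by
  by_contra hcon
  push Not at hcon
  refine S5.H843.core5 S5.H229.no_five h.irr h.mn h5 fun z v hzv hv hz => ?_
  rcases hz with hz | ⟨a, b, c, d, hz⟩
  · have := hX z v (by rw [dist_comm]; exact hzv) hz
    omega
  · have h1 := hcon z a b c d hz v (by rw [dist_comm]; exact hzv)
    have h2 := h5 v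
    have h3 : (T z).ncard ≤ 3 := hX v z hzv (by omega)
    have h4 : (T z).ncard = 4 := by
      rw [hz.pal, Set.ncard_eq_toFinset_card']
      have e1 := hz.ab; have e2 := hz.ac; have e3 := hz.ad; have e4 := hz.bc; have e5 := hz.bd
      have e6 := hz.cd
      simp [e1, e2, e3, e4, e5, e6]
    omega

/-- the frame of a six-coloured planar map in which the unit circles of the five-coloured points
contain no point with four colours, if this is known for the connected frames; it is connected near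
the four-coloured points at distance one from another one -/
theorem PlMap.exists_frame5c (h6 : ∀ U T, MapC U T → ∀ z, ¬ ∀ i, i ∈ T z)
    (hX : ∀ U T, MapC U T → (∀ z, (T z).ncard ≤ 5) → ∀ z v, dist v z = 1 → 5 ≤ (T z).ncard →
      (T v).ncard ≤ 3)
    {ι κ : Type*} {g : ι → ℝ → EuclideanSpace ℝ (Fin 2)}
    {G : κ → Set (EuclideanSpace ℝ (Fin 2))} (h : PlMap g G) (c : κ → Fin 6)
    (hc : ∀ f f', c f = c f' → ∀ x ∈ G f, ∀ y ∈ G f', dist x y ≠ 1) :
    ∃ U T, MapFr U T ∧ (∀ z, (T z).ncard ≤ 5) ∧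
      (∀ z v, dist v z = 1 → 5 ≤ (T z).ncard → (T v).ncard ≤ 3) ∧
      (∀ z, 5 ≤ (T z).ncard → ∀ᶠ w in 𝓝 z, ∀ i ∈ T w, Cnn U z w i) ∧
      ∀ z v, dist v z = 1 → 4 ≤ (T z).ncard → 4 ≤ (T v).ncard →
        ∀ᶠ w in 𝓝 z, ∀ i ∈ T w, Cnn U z w i := by
  obtain ⟨U, T, T', hU, hU', halt⟩ := h.exists_frame c hc
  have h55 : ∀ z, (T' z).ncard ≤ 5 := by
    intro z
    by_contra hc
    push Not at hc
    have h1 : T' z = univ := Set.eq_of_subset_of_ncard_le (subset_univ _) (by
      rw [Set.ncard_univ, Nat.card_eq_fintype_card, Fintype.card_fin]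
      omega) (Set.toFinite _)
    exact h6 U T' hU' z fun i => by rw [h1]; exact mem_univ i
  have hle : ∀ z, 4 ≤ (T z).ncard → (T z).ncard ≤ (T' z).ncard := by
    intro z hz
    rcases halt z hz with h1 | h1
    · exact Set.ncard_le_ncard h1.self_of_nhds (Set.toFinite _)
    · exact h1.le
  have hct : ∀ z, 4 ≤ (T z).ncard → (T' z).ncard ≤ (T z).ncard →
      ∀ᶠ w in 𝓝 z, ∀ i ∈ T w, Cnn U z w i := by
    intro z hz hz'
    rcases halt z hz with h1 | h1
    · filter_upwards [h1, hU'.ctn z] with w hw1 hw2 i hi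
      exact hw2 i (hw1 hi)
    · omega
  have hX' := hX U T' hU' h55
  refine ⟨U, T, hU, fun z => ?_, fun z v hzv hz => ?_, fun z hz => ?_, fun z v hzv hz hv => ?_⟩
  · by_contra hc
    push Not at hc
    have h1 := hle z (by omega)
    have := h55 z
    omega
  · by_contra hc
    push Not at hc
    have h1 := hle z (by omega)
    have h2 := hle v (by omega)
    have h3 := hX' z v hzv (by omega)
    omega
  · exact hct z (by omega) (by have := h55 z; omega)
  · refine hct z hz ?_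
    by_contra hc
    push Not at hc
    have h2 := hle v hv
    have h3 := hX' z v hzv (by omega)
    omega

/-- **No six-coloured planar map**, from the blocks: no six-coloured point (connected frame); no
four- or five-coloured point at distance one from a five-coloured point (connected frame); no
four-coloured point at distance one from a two-pair point (frame with minimality, five-coloured
points with clean unit circles allowed) -/
theorem no_map_of_five (h6 : ∀ U T, MapC U T → ∀ z, ¬ ∀ i, i ∈ T z)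
    (hX : ∀ U T, MapC U T → (∀ z, (T z).ncard ≤ 5) → ∀ z v, dist v z = 1 → 5 ≤ (T z).ncard →
      (T v).ncard ≤ 3)
    (h44 : ∀ U T, MapFr U T → (∀ z, (T z).ncard ≤ 5) →
      (∀ z v, dist v z = 1 → 5 ≤ (T z).ncard → (T v).ncard ≤ 3) →
      (∀ z, 5 ≤ (T z).ncard → ∀ᶠ w in 𝓝 z, ∀ i ∈ T w, Cnn U z w i) →
      (∀ z v, dist v z = 1 → 4 ≤ (T z).ncard → 4 ≤ (T v).ncard →
        ∀ᶠ w in 𝓝 z, ∀ i ∈ T w, Cnn U z w i) →
      ∀ z a b c d, DPt T z a b c d → ∀ v, dist v z = 1 → (T v).ncard = 4 → False)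
    {ι κ : Type*} {g : ι → ℝ → EuclideanSpace ℝ (Fin 2)}
    {G : κ → Set (EuclideanSpace ℝ (Fin 2))} (h : PlMap g G) (c : κ → Fin 6) :
    ∃ f f', c f = c f' ∧ ∃ x ∈ G f, ∃ y ∈ G f', dist x y = 1 := by
  by_contra hcon
  push Not at hcon
  obtain ⟨U, T, hU, h5, hX', hc5, hc4⟩ := PlMap.exists_frame5c h6 hX h c hcon
  obtain ⟨z, a, b, c', d, hz, v, hv, hv4⟩ := hU.exists_pair5 h5 hX'
  exact h44 U T hU h5 hX' hc5 hc4 z a b c' d hz v hv hv4

end Vale.Agent.P032.H355
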