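import Vale.Agent.P032X.H355.Crit
import Vale.Agent.P032X.H355.Top

/-!
# P032: points of a six-coloured planar map which see all colours

`Base.exists_sub`: if the unit circle about `x` meets the closures of all open sets `V i` of a map,
there is a connected frame `U`, `T` above the `V i` such that `T x` contains any given set `C` of
colours `i` with `x` in the closure of `V i` (marked points as in `Base.exists_all`).
`PlMap.exists_crit`: the same for the faces of a planar map.
`PlMap.four_of`: if no connected frame has a five-coloured or six-coloured point, then every point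
`x` of a six-coloured planar map has a colour `i` such that no closed face of colour `i` meets the
unit circle about `x`, or there are two colours such that `x` is in no closed face of these colours.
-/

open Set Filter Topology Metric

noncomputable section

namespace Vale.Agent.P032.H355

open Vale.Agent.P032.Six

/-- the reduced family with marked points of some colours -/
theorem GMax.exists_red_c {ι : Type*} {k : ℕ} {g : ι → ℝ → ℂ} {pal : ι → Set (Fin k)}
    {V U : Fin k → Set ℂ} {K : ι → Set ℝ} {S : ι → Set ℝ} (h : GMax g pal V U)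
    (hb : Base g pal V) (hs : Seg g U K) (hS : ∀ e, Mks g U e (S e)) {x₀ : ℂ} (hx₀ : x₀ ∈ XX U)
    {w : ℕ → ℂ} {e : ℕ → Fin k} (hall : ∀ n, e n ∈ BB g pal U x₀) (hwV : ∀ n, w n ∈ V (e n))
    (hdec : ∀ m n, m < n → dist (w n) x₀ < dist (w m) x₀ / 2) (hlim : Tendsto w atTop (𝓝 x₀)) :
    ∃ R : Fin k → Set ℂ, (∀ i, IsOpen (R i)) ∧ (∀ i, R i ⊆ Uo g V U S i) ∧
      (∀ v, v ∉ XX U → ∃ i, v ∈ R i) ∧
      (∀ x ∈ XX U, ∀ i, x ∈ closure (R i) → i ∈ BB g pal U x) ∧
      ∀ n, ∀ i, w n ∈ closure (R i) → i = e n := by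
  classical
  have hwX : ∀ n, w n ∉ XX U := fun n hn => hn (e n) (h.sub (e n) (hwV n))
  have hpos : ∀ n, 0 < dist (w n) x₀ := fun n => dist_pos.2 fun hn => hwX n (hn ▸ hx₀)
  -- the marked points are isolated
  have hiso : ∀ n m, dist (w m) (w n) < dist (w n) x₀ / 2 → m = n := by
    intro n m hd
    have h1 := dist_triangle (w m) (w n) x₀
    have h2 := dist_triangle_left (w n) x₀ (w m)
    rcases lt_trichotomy m n with h3 | h3 | h3
    · have h4 := hdec m n h3
      have h5 := hpos n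
      linarith
    · exact h3
    · have h4 := hdec n m h3
      linarith
  have hinj : ∀ n m, w m = w n → m = n := fun n m hmn =>
    hiso n m (by rw [hmn, dist_self]; exact half_pos (hpos n))
  set M : Set ℂ := range w with hM
  have hcl : IsClosed (insert x₀ M) := hlim.isCompact_insert_range.isClosed
  set D : Set ℂ := XX U ∪ M with hD
  have hDc : IsClosed D := by
    have h1 : D = XX U ∪ insert x₀ M := by
      ext y
      constructor
      · rintro (hy | hy)
        · exact Or.inl hy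
        · exact Or.inr (Or.inr hy)
      · rintro (hy | rfl | hy)
        · exact Or.inl hy
        · exact Or.inl hx₀
        · exact Or.inr hy
    rw [h1]
    exact h.isClosed_XX.union hcl
  set B : ℂ → Set (Fin k) := fun x => {i | (x ∈ XX U → i ∈ BB g pal U x) ∧ ∀ n, w n = x → i = e n}
    with hB
  have hBX : ∀ x ∈ XX U, B x = BB g pal U x := by
    intro x hx
    ext i
    exact ⟨fun hi => hi.1 hx, fun hi => ⟨fun _ => hi, fun n hn => absurd (hn ▸ hx) (hwX n)⟩⟩
  have hBw : ∀ n, B (w n) = {e n} := by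
    intro n
    ext i
    refine ⟨fun hi => hi.2 n rfl, fun hi => ⟨fun hn => absurd hn (hwX n), fun m hm => ?_⟩⟩
    rw [hinj n m hm]
    exact hi
  -- near a marked point
  have hnearw : ∀ n, ∀ᶠ y in 𝓝 (w n), y ∈ D → y = w n := by
    intro n
    filter_upwards [h.isClosed_XX.isOpen_compl.mem_nhds (hwX n),
      ball_mem_nhds (w n) (half_pos (hpos n))] with y hy1 hy2 hyD
    rcases hyD with hyD | ⟨m, rfl⟩
    · exact absurd hyD hy1
    · rw [hiso n m hy2]
  -- near another point of `XX`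
  have hnearX : ∀ x ∈ XX U, x ≠ x₀ → ∀ᶠ y in 𝓝 x, y ∈ D → y ∈ XX U := by
    intro x hx hne
    have h1 : x ∉ insert x₀ M := by
      rintro (h2 | ⟨n, h2⟩)
      · exact hne h2
      · exact hwX n (h2 ▸ hx)
    filter_upwards [hcl.isOpen_compl.mem_nhds h1] with y hy hyD
    rcases hyD with hyD | hyD
    · exact hyD
    · exact absurd (Or.inr hyD) hy
  obtain ⟨R, h1, h2, h3, h4, -⟩ := exists_shrink h.isClosed_XX hDc (Uo g V U S)
    (fun i => isOpen_mk (h.isOpen i)) (fun v hv => h.cov_o hb hS hv) B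
    (fun x hx => by
      rcases hx with hx | ⟨n, rfl⟩
      · rw [hBX x hx]
        by_cases hne : x = x₀
        · subst hne
          filter_upwards [hs.usc h hb (Or.inl hx)] with y hy2 hyD
          rcases hyD with hyD | ⟨n, rfl⟩
          · rw [hBX y hyD]
            exact hy2 (Or.inl hyD)
          · rw [hBw n]
            rintro i rfl
            exact hall n
        · filter_upwards [hnearX x hx hne, hs.usc h hb (Or.inl hx)] with y hy1 hy2 hyD
          rw [hBX y (hy1 hyD)]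
          exact hy2 (Or.inl (hy1 hyD))
      · filter_upwards [hnearw n] with y hy hyD
        rw [hy hyD])
    (fun x hx hxX => by
      rcases hx with hx | ⟨n, rfl⟩
      · exact absurd hx hxX
      · filter_upwards [hnearw n] with y hy hyD
        rw [hy hyD])
    (fun x hx => by
      rcases hx with hx | ⟨n, rfl⟩
      · rw [hBX x hx]
        exact hs.suff_o h hb hS (Or.inl hx)
      · rw [hBw n]
        filter_upwards [(hb.isOpen (e n)).mem_nhds (hwV n)] with v hv _
        exact ⟨e n, rfl, mem_Uo_V (h.sub _ hv) hv⟩)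
  refine ⟨R, h1, h2, h3, fun x hx i hi => ?_, fun n i hi => ?_⟩
  · rw [← hBX x hx]
    exact h4 x (Or.inl hx) i hi
  · have h5 := h4 (w n) (Or.inr ⟨n, rfl⟩) i hi
    rw [hBw n] at h5
    exact h5

/-- **A point which sees all colours keeps its colours in a connected frame.** -/
theorem Base.exists_sub {ι : Type*} {g : ι → ℝ → ℂ} {pal : ι → Set (Fin 6)} {V : Fin 6 → Set ℂ}
    (hb : Base g pal V) {x₀ : ℂ} (hin : ∀ e, ∀ u ∈ Ioo (0 : ℝ) 1, g e u ≠ x₀) {C : Set (Fin 6)}
    (hC : C.Nonempty) (hx : ∀ i ∈ C, x₀ ∈ closure (V i))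
    (hblk : ∀ i, ∃ y ∈ closure (V i), dist x₀ y = 1) :
    ∃ U T, Irr U T ∧ LF3 U T ∧ (∀ x, ∀ᶠ w in 𝓝 x, ∀ i ∈ T w, Cnn U x w i) ∧ (∀ i, V i ⊆ U i) ∧
      ∀ i ∈ C, i ∈ T x₀ := by
  classical
  obtain ⟨U, h⟩ := hb.exists_gmax
  obtain ⟨K, hs⟩ := exists_seg g U
  choose S hS using exists_mks g U
  have hX : x₀ ∈ XX U := by
    intro i hi
    obtain ⟨y, hy, hd⟩ := hblk i
    exact h.free' i x₀ hi y (closure_mono (h.sub i) hy) hd
  have hall : ∀ i ∈ C, i ∈ BB g pal U x₀ := fun i hi =>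
    h.BB_end hX hin ((hb.conn i x₀ (hx i hi)).mono (h.sub i))
  obtain ⟨i₀, hi₀⟩ := hC
  -- the marked points
  set r : ℕ → Fin 6 := fun n => ⟨n % 6, Nat.mod_lt _ (by norm_num)⟩ with hr
  set e : ℕ → Fin 6 := fun n => if r n ∈ C then r n else i₀ with he
  have heC : ∀ n, e n ∈ C := by
    intro n
    simp only [he]
    split_ifs with h1
    · exact h1
    · exact hi₀
  have hfe : ∀ i ∈ C, ∃ᶠ n in atTop, e n = i := by
    intro i hi
    rw [frequently_atTop]
    intro N
    have h1 : r (6 * N + i) = i := by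
      apply Fin.ext
      simp only [hr]
      have := i.2
      omega
    refine ⟨6 * N + i, by omega, ?_⟩
    simp only [he]
    rw [h1, if_pos hi]
  obtain ⟨w, hwV, hdec, hlim⟩ := exists_marks_seq (A := fun n => V (e n)) (x := x₀)
    (fun n => hx _ (heC n)) (fun n hn => hX (e n) (h.sub _ hn))
  obtain ⟨R, hRo, hRS, hRc, hRB, hRw⟩ := h.exists_red_c hb hs hS hX
    (fun n => hall _ (heC n)) hwV hdec hlim
  have hRU : ∀ i, R i ⊆ U i := fun i => (hRS i).trans (Uo_sub i)
  have hmx : Mx U := h.mx hb hRU hRc hRB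
  have hXX : XX R = XX U := XX_eq hRU hRc
  have hdR : Dense (⋃ i, R i) := dense_of_XX hmx.dense hXX
  have hfree : ∀ i, ∀ x ∈ R i, ∀ y ∈ R i, dist x y ≠ 1 := fun i x hx y hy =>
    h.free i x (hRU i hx) y (hRU i hy)
  have hT₀ : ∀ x, (Kr R univ x).Nonempty ∧ Kr R univ x ⊆ PR U R x := fun x =>
    Kr_good' hRo hfree hXX univ x (PR_ne hdR hRc x)
  obtain ⟨T, hc, hn, hs', hp⟩ := S5.H410.exists_pure (Kr R univ) (Kr_closed R univ)
    (fun x => (hT₀ x).1)
  have hTP : ∀ x, T x ⊆ PR U R x := fun x => (hs' x).trans (hT₀ x).2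
  have hTB : ∀ x ∈ XX U, T x ⊆ BB g pal U x := fun x hx i hi => hRB x hx i (hTP x hi).1
  refine ⟨U, T, ⟨hmx, fun i x hx hf => ?_, hc, hn, fun x i hi => closure_mono (hRU i) (hTP x hi).1,
    fun x hX i hi => hRU i ((hTP x hi).2 hX), hp⟩, h.lf_of hb hTB, fun x => ?_, h.sub,
    fun i hi => ?_⟩
  · by_cases hX : x ∈ XX U
    · have hi := hx.resolve_left (fun h1 => h1 hX)
      obtain ⟨y, hy, hxy⟩ := ((hTB x hX hi).1 hX).1
      exact absurd hxy (hf y hy)
    · exact h.max_off hX hf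
  · filter_upwards [h.ctn hb hS x] with v hv i hi
    exact hv i (closure_mono (hRS i) (hTP v hi).1)
  · -- the marked points have one colour
    have h1 : ∀ n, e n ∈ T (w n) := by
      intro n
      obtain ⟨j, hj⟩ := hn (w n)
      have h2 := hRw n j (hTP (w n) hj).1
      exact h2 ▸ hj
    by_contra hcon
    have h2 : ∀ᶠ n in atTop, w n ∈ {x | i ∈ T x}ᶜ :=
      hlim.eventually ((hc i).isOpen_compl.mem_nhds hcon)
    obtain ⟨n, h3, h4⟩ := ((hfe i hi).and_eventually h2).exists
    exact h4 (h3 ▸ h1 n)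

/-- **A point of a planar map which sees all colours.** -/
theorem PlMap.exists_crit {ι κ : Type*} {g : ι → ℝ → EuclideanSpace ℝ (Fin 2)}
    {G : κ → Set (EuclideanSpace ℝ (Fin 2))} (h : PlMap g G) (c : κ → Fin 6)
    (hc : ∀ f f', c f = c f' → ∀ x ∈ G f, ∀ y ∈ G f', dist x y ≠ 1)
    (x : EuclideanSpace ℝ (Fin 2)) (hbl : ∀ i, ∃ f, c f = i ∧ ∃ y ∈ closure (G f), dist x y = 1)
    {C : Set (Fin 6)} (hC : 3 ≤ C.ncard) (hx : ∀ i ∈ C, ∃ f, c f = i ∧ x ∈ closure (G f)) :
    ∃ U T z, MapC U T ∧ C ⊆ T z := by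
  classical
  let φ : ℂ ≃ₗᵢ[ℝ] EuclideanSpace ℝ (Fin 2) := Complex.orthonormalBasisOneI.repr
  have hP := h.toPMap φ
  have hcl : ∀ f, closure (φ ⁻¹' G f) = φ ⁻¹' closure (G f) := fun f =>
    (φ.toHomeomorph.preimage_closure (G f)).symm
  obtain ⟨pal, hb⟩ := hP.exists_base c fun f f' hff x hx y hy => by
    rw [← φ.dist_map]
    exact hc f f' hff _ hx _ hy
  have hcol : ∀ f y, y ∈ closure (G f) →
      φ.symm y ∈ closure (colV (fun f => φ ⁻¹' G f) c (c f)) := by
    intro f y hy
    have h1 : φ.symm y ∈ closure (φ ⁻¹' G f) := by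
      rw [hcl f, mem_preimage, φ.apply_symm_apply]
      exact hy
    exact closure_mono (fun v hv => mem_colV.2 ⟨f, rfl, hv⟩) h1
  -- inner points of edges have at most two colours
  have hin : ∀ e, ∀ u ∈ Ioo (0 : ℝ) 1, φ.symm (g e u) ≠ φ.symm x := by
    intro e u hu he
    have he' : g e u = x := φ.symm.injective he
    obtain ⟨a, b, hab⟩ := h.sides e
    have h1 : C ⊆ {c a, c b} := by
      intro i hi
      obtain ⟨f, hf, hx⟩ := hx i hi
      rw [← he'] at hx
      rcases (hab u hu f).1 hx with rfl | rfl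
      · exact Or.inl hf.symm
      · exact Or.inr hf.symm
    have h2 := Set.ncard_le_ncard h1 (Set.toFinite _)
    have h3 := Set.ncard_insert_le (c a) {c b}
    rw [Set.ncard_singleton] at h3
    omega
  have hCne : C.Nonempty := by
    rw [Set.nonempty_iff_ne_empty]
    rintro rfl
    simp at hC
  have hx' : ∀ i ∈ C, φ.symm x ∈ closure (colV (fun f => φ ⁻¹' G f) c i) := by
    intro i hi
    obtain ⟨f, rfl, hx⟩ := hx i hi
    exact hcol f x hx
  have hbl' : ∀ i, ∃ y ∈ closure (colV (fun f => φ ⁻¹' G f) c i), dist (φ.symm x) y = 1 := by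
    intro i
    obtain ⟨f, rfl, y, hy, hd⟩ := hbl i
    exact ⟨φ.symm y, hcol f y hy, by rw [φ.symm.dist_map]; exact hd⟩
  obtain ⟨U, T, hI, hL, hCt, -, hT⟩ := hb.exists_sub hin hCne hx' hbl'
  exact ⟨U, T, φ.symm x, ⟨hI, hL, hCt⟩, hT⟩

/-- **At most four colours meet at a point which sees all six colours**, if no connected frame has
a five-coloured or six-coloured point. -/
theorem PlMap.four_of (h6 : ∀ (U : Fin 6 → Set ℂ) (T : ℂ → Set (Fin 6)), MapC U T → ∀ z,
      (T z).ncard ≤ 5)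
    (h5 : ∀ (U : Fin 6 → Set ℂ) (T : ℂ → Set (Fin 6)), MapC U T → (∀ z, (T z).ncard ≤ 5) → ∀ z,
      (T z).ncard ≠ 5)
    {ι κ : Type*} {g : ι → ℝ → EuclideanSpace ℝ (Fin 2)}
    {G : κ → Set (EuclideanSpace ℝ (Fin 2))} (h : PlMap g G) (c : κ → Fin 6)
    (hc : ∀ f f', c f = c f' → ∀ x ∈ G f, ∀ y ∈ G f', dist x y ≠ 1)
    (x : EuclideanSpace ℝ (Fin 2)) :
    (∃ i, ∀ f, c f = i → ∀ y ∈ closure (G f), dist x y ≠ 1) ∨
      ∃ i j, i ≠ j ∧ ∀ f, c f = i ∨ c f = j → x ∉ closure (G f) := by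
  classical
  by_contra hcon
  push Not at hcon
  obtain ⟨h1, h2⟩ := hcon
  set C : Set (Fin 6) := {i | ∃ f, c f = i ∧ x ∈ closure (G f)} with hC
  have h3 : Cᶜ.ncard ≤ 1 := by
    rw [Set.ncard_le_one (Set.toFinite _)]
    intro i hi j hj
    by_contra hij
    obtain ⟨f, hf, hx⟩ := h2 i j hij
    rcases hf with hf | hf
    · exact hi ⟨f, hf, hx⟩
    · exact hj ⟨f, hf, hx⟩
  have h4 : C.ncard + Cᶜ.ncard = 6 := by
    rw [Set.ncard_add_ncard_compl, Nat.card_eq_fintype_card, Fintype.card_fin]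
  obtain ⟨U, T, z, hM, hT⟩ := h.exists_crit c hc x (fun i => by
    obtain ⟨f, hf, y, hy, hd⟩ := h1 i
    exact ⟨f, hf, y, hy, hd⟩) (C := C) (by omega) (fun i hi => hi)
  have h5' := Set.ncard_le_ncard hT (Set.toFinite _)
  have h6' := h6 U T hM z
  exact h5 U T hM (h6 U T hM) z (by omega)

end Vale.Agent.P032.H355
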