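import Vale.Agent.P032X.H355.Crit5

/-!
# P032: two points of a six-coloured planar map which see all colours

`Base.exists_pair`: two different points `x`, `y` such that the unit circles about `x` and about `y`
meet the closures of all open sets `V i` of a map: there is a connected frame `U`, `T` above the
`V i` such that `T x` and `T y` contain given sets of colours `i` with `x`, `y` in the closure of
`V i`.
`PlMap.pair_of`: if no connected frame has a five-coloured point at distance one from a point with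
at least four colours, two points `x`, `y` at distance one of a six-coloured planar map which both
see all six colours do not lie in closed faces of five and of four colours.
-/

open Set Filter Topology Metric

noncomputable section

namespace Vale.Agent.P032.H355

open Vale.Agent.P032.Six

/-- the reduced family with a set of marked points -/
theorem GMax.exists_red_g {ι : Type*} {k : ℕ} {g : ι → ℝ → ℂ} {pal : ι → Set (Fin k)}
    {V U : Fin k → Set ℂ} {K : ι → Set ℝ} {S : ι → Set ℝ} (h : GMax g pal V U)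
    (hb : Base g pal V) (hs : Seg g U K) (hS : ∀ e, Mks g U e (S e)) {M : Set ℂ}
    {κ : ℂ → Fin k} (hMX : ∀ m ∈ M, m ∉ XX U) (hDc : IsClosed (XX U ∪ M))
    (hiso : ∀ m ∈ M, ∀ᶠ y in 𝓝 m, y ∈ M → y = m) (hV : ∀ m ∈ M, m ∈ V (κ m))
    (hBB : ∀ x ∈ XX U, ∀ᶠ y in 𝓝 x, y ∈ M → κ y ∈ BB g pal U x) :
    ∃ R : Fin k → Set ℂ, (∀ i, IsOpen (R i)) ∧ (∀ i, R i ⊆ Uo g V U S i) ∧
      (∀ v, v ∉ XX U → ∃ i, v ∈ R i) ∧
      (∀ x ∈ XX U, ∀ i, x ∈ closure (R i) → i ∈ BB g pal U x) ∧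
      ∀ m ∈ M, ∀ i, m ∈ closure (R i) → i = κ m := by
  classical
  set B : ℂ → Set (Fin k) := fun x => {i | (x ∈ XX U → i ∈ BB g pal U x) ∧ (x ∈ M → i = κ x)}
    with hB
  have hBX : ∀ x ∈ XX U, B x = BB g pal U x := by
    intro x hx
    ext i
    exact ⟨fun hi => hi.1 hx, fun hi => ⟨fun _ => hi, fun hm => absurd hx (hMX x hm)⟩⟩
  have hBm : ∀ m ∈ M, B m = {κ m} := by
    intro m hm
    ext i
    exact ⟨fun hi => hi.2 hm, fun hi => ⟨fun hX => absurd hX (hMX m hm), fun _ => hi⟩⟩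
  have hnearm : ∀ m ∈ M, ∀ᶠ y in 𝓝 m, y ∈ XX U ∪ M → y = m := by
    intro m hm
    filter_upwards [h.isClosed_XX.isOpen_compl.mem_nhds (hMX m hm), hiso m hm] with y hy1 hy2 hyD
    rcases hyD with hyD | hyD
    · exact absurd hyD hy1
    · exact hy2 hyD
  obtain ⟨R, h1, h2, h3, h4, -⟩ := exists_shrink h.isClosed_XX hDc (Uo g V U S)
    (fun i => isOpen_mk (h.isOpen i)) (fun v hv => h.cov_o hb hS hv) B
    (fun x hx => by
      rcases hx with hx | hx
      · rw [hBX x hx]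
        filter_upwards [hs.usc h hb (Or.inl hx), hBB x hx] with y hy1 hy2 hyD
        rcases hyD with hyD | hyD
        · rw [hBX y hyD]
          exact hy1 (Or.inl hyD)
        · rw [hBm y hyD]
          rintro i rfl
          exact hy2 hyD
      · filter_upwards [hnearm x hx] with y hy hyD
        rw [hy hyD])
    (fun x hx hxX => by
      rcases hx with hx | hx
      · exact absurd hx hxX
      · filter_upwards [hnearm x hx] with y hy hyD
        rw [hy hyD])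
    (fun x hx => by
      rcases hx with hx | hx
      · rw [hBX x hx]
        exact hs.suff_o h hb hS (Or.inl hx)
      · rw [hBm x hx]
        filter_upwards [(hb.isOpen (κ x)).mem_nhds (hV x hx)] with v hv _
        exact ⟨κ x, rfl, mem_Uo_V (h.sub _ hv) hv⟩)
  refine ⟨R, h1, h2, h3, fun x hx i hi => ?_, fun m hm i hi => ?_⟩
  · rw [← hBX x hx]
    exact h4 x (Or.inl hx) i hi
  · have h5 := h4 m (Or.inr hm) i hi
    rw [hBm m hm] at h5
    exact h5

/-- marked points near `x₀` with the colours `C` -/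
structure MP {k : ℕ} (V : Fin k → Set ℂ) (x₀ : ℂ) (C : Set (Fin k)) (r : ℝ) (M : Set ℂ)
    (κ : ℂ → Fin k) : Prop where
  inV : ∀ m ∈ M, m ∈ V (κ m)
  inC : ∀ m ∈ M, κ m ∈ C
  inB : ∀ m ∈ M, dist m x₀ < r
  iso : ∀ m ∈ M, ∀ᶠ y in 𝓝 m, y ∈ M → y = m
  cl : IsClosed (insert x₀ M)
  freq : ∀ i ∈ C, ∃ᶠ y in 𝓝 x₀, y ∈ M ∧ κ y = i

theorem exists_mp {V : Fin 6 → Set ℂ} {x₀ : ℂ} {C : Set (Fin 6)} {r : ℝ} (hr : 0 < r)
    (hC : C.Nonempty) (hx : ∀ i ∈ C, x₀ ∈ closure (V i)) (hn : ∀ i, x₀ ∉ V i) :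
    ∃ M κ, MP V x₀ C r M κ := by
  classical
  obtain ⟨i₀, hi₀⟩ := hC
  set ρ : ℕ → Fin 6 := fun n => ⟨n % 6, Nat.mod_lt _ (by norm_num)⟩ with hρ
  set e : ℕ → Fin 6 := fun n => if ρ n ∈ C then ρ n else i₀ with he
  have heC : ∀ n, e n ∈ C := by
    intro n
    simp only [he]
    split_ifs with h1
    · exact h1
    · exact hi₀
  have hfe : ∀ i ∈ C, ∃ᶠ n in atTop, e n = i := by
    intro i hi
    rw [frequently_atTop]
    intro N
    have h1 : ρ (6 * N + i) = i := by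
      apply Fin.ext
      simp only [hρ]
      have := i.2
      omega
    refine ⟨6 * N + i, by omega, ?_⟩
    simp only [he]
    rw [h1, if_pos hi]
  obtain ⟨w, hwV, hdec, hlim⟩ := exists_marks_seq (A := fun n => V (e n) ∩ ball x₀ r) (x := x₀)
    (fun n => by
      rw [mem_closure_iff_nhds]
      intro t ht
      obtain ⟨y, hy, hyV⟩ := mem_closure_iff_nhds.1 (hx _ (heC n)) (t ∩ ball x₀ r)
        (inter_mem ht (ball_mem_nhds x₀ hr))
      exact ⟨y, hy.1, hyV, hy.2⟩)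
    (fun n hc => hn (e n) hc.1)
  have hpos : ∀ n, 0 < dist (w n) x₀ := fun n => dist_pos.2 fun hc => hn (e n) (hc ▸ (hwV n).1)
  have hiso : ∀ n m, dist (w m) (w n) < dist (w n) x₀ / 2 → m = n := by
    intro n m hd
    have h1 := dist_triangle (w m) (w n) x₀
    have h2 := dist_triangle_left (w n) x₀ (w m)
    rcases lt_trichotomy m n with h3 | h3 | h3
    · have h4 := hdec m n h3
      have h5 := hpos n
      linarith
    · exact h3
    · have h4 := hdec n m h3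
      linarith
  have hinj : ∀ n m, w m = w n → m = n := fun n m hmn =>
    hiso n m (by rw [hmn, dist_self]; exact half_pos (hpos n))
  have hκ : ∃ κ : ℂ → Fin 6, ∀ n, κ (w n) = e n := by
    refine ⟨fun y => if h : ∃ n, w n = y then e h.choose else i₀, fun n => ?_⟩
    have h : ∃ m, w m = w n := ⟨n, rfl⟩
    simp only [dif_pos h]
    rw [hinj n h.choose h.choose_spec]
  obtain ⟨κ, hκ⟩ := hκ
  refine ⟨range w, κ, ?_, ?_, ?_, ?_, hlim.isCompact_insert_range.isClosed, ?_⟩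
  · rintro _ ⟨n, rfl⟩
    rw [hκ]
    exact (hwV n).1
  · rintro _ ⟨n, rfl⟩
    rw [hκ]
    exact heC n
  · rintro _ ⟨n, rfl⟩
    exact (hwV n).2
  · rintro _ ⟨n, rfl⟩
    filter_upwards [ball_mem_nhds (w n) (half_pos (hpos n))] with y hy hyM
    obtain ⟨m, rfl⟩ := hyM
    rw [hiso n m hy]
  · intro i hi
    have h1 : ∃ᶠ n in atTop, w n ∈ range w ∧ κ (w n) = i :=
      (hfe i hi).mono fun n hn => ⟨mem_range_self n, by rw [hκ]; exact hn⟩
    exact hlim.frequently h1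

/-- a frame with marked points -/
theorem GMax.exists_frame_g {ι : Type*} {g : ι → ℝ → ℂ} {pal : ι → Set (Fin 6)}
    {V U : Fin 6 → Set ℂ} {K : ι → Set ℝ} {S : ι → Set ℝ} (h : GMax g pal V U)
    (hb : Base g pal V) (hs : Seg g U K) (hS : ∀ e, Mks g U e (S e)) {M : Set ℂ}
    {κ : ℂ → Fin 6} (hMX : ∀ m ∈ M, m ∉ XX U) (hDc : IsClosed (XX U ∪ M))
    (hiso : ∀ m ∈ M, ∀ᶠ y in 𝓝 m, y ∈ M → y = m) (hV : ∀ m ∈ M, m ∈ V (κ m))
    (hBB : ∀ x ∈ XX U, ∀ᶠ y in 𝓝 x, y ∈ M → κ y ∈ BB g pal U x) :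
    ∃ T, Irr U T ∧ LF3 U T ∧ (∀ x, ∀ᶠ w in 𝓝 x, ∀ i ∈ T w, Cnn U x w i) ∧
      ∀ m ∈ M, κ m ∈ T m := by
  classical
  obtain ⟨R, hRo, hRS, hRc, hRB, hRw⟩ := h.exists_red_g hb hs hS hMX hDc hiso hV hBB
  have hRU : ∀ i, R i ⊆ U i := fun i => (hRS i).trans (Uo_sub i)
  have hmx : Mx U := h.mx hb hRU hRc hRB
  have hXX : XX R = XX U := XX_eq hRU hRc
  have hdR : Dense (⋃ i, R i) := dense_of_XX hmx.dense hXX
  have hfree : ∀ i, ∀ x ∈ R i, ∀ y ∈ R i, dist x y ≠ 1 := fun i x hx y hy =>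
    h.free i x (hRU i hx) y (hRU i hy)
  have hT₀ : ∀ x, (Kr R univ x).Nonempty ∧ Kr R univ x ⊆ PR U R x := fun x =>
    Kr_good' hRo hfree hXX univ x (PR_ne hdR hRc x)
  obtain ⟨T, hc, hn, hs', hp⟩ := S5.H410.exists_pure (Kr R univ) (Kr_closed R univ)
    (fun x => (hT₀ x).1)
  have hTP : ∀ x, T x ⊆ PR U R x := fun x => (hs' x).trans (hT₀ x).2
  have hTB : ∀ x ∈ XX U, T x ⊆ BB g pal U x := fun x hx i hi => hRB x hx i (hTP x hi).1
  refine ⟨T, ⟨hmx, fun i x hx hf => ?_, hc, hn, fun x i hi => closure_mono (hRU i) (hTP x hi).1,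
    fun x hX i hi => hRU i ((hTP x hi).2 hX), hp⟩, h.lf_of hb hTB, fun x => ?_,
    fun m hm => ?_⟩
  · by_cases hX : x ∈ XX U
    · have hi := hx.resolve_left (fun h1 => h1 hX)
      obtain ⟨y, hy, hxy⟩ := ((hTB x hX hi).1 hX).1
      exact absurd hxy (hf y hy)
    · exact h.max_off hX hf
  · filter_upwards [h.ctn hb hS x] with v hv i hi
    exact hv i (closure_mono (hRS i) (hTP v hi).1)
  · obtain ⟨j, hj⟩ := hn m
    have h2 := hRw m hm j (hTP m hj).1
    exact h2 ▸ hj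

/-- **Two points which see all colours keep their colours in a connected frame.** -/
theorem Base.exists_pair {ι : Type*} {g : ι → ℝ → ℂ} {pal : ι → Set (Fin 6)} {V : Fin 6 → Set ℂ}
    (hb : Base g pal V) {x₀ x₁ : ℂ} (hne : x₀ ≠ x₁)
    (hin : ∀ e, ∀ u ∈ Ioo (0 : ℝ) 1, g e u ≠ x₀) (hin' : ∀ e, ∀ u ∈ Ioo (0 : ℝ) 1, g e u ≠ x₁)
    {C C' : Set (Fin 6)} (hC : C.Nonempty) (hC' : C'.Nonempty)
    (hx : ∀ i ∈ C, x₀ ∈ closure (V i)) (hx' : ∀ i ∈ C', x₁ ∈ closure (V i))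
    (hblk : ∀ i, ∃ y ∈ closure (V i), dist x₀ y = 1)
    (hblk' : ∀ i, ∃ y ∈ closure (V i), dist x₁ y = 1) :
    ∃ U T, Irr U T ∧ LF3 U T ∧ (∀ x, ∀ᶠ w in 𝓝 x, ∀ i ∈ T w, Cnn U x w i) ∧ (∀ i, V i ⊆ U i) ∧
      (∀ i ∈ C, i ∈ T x₀) ∧ ∀ i ∈ C', i ∈ T x₁ := by
  classical
  obtain ⟨U, h⟩ := hb.exists_gmax
  obtain ⟨K, hs⟩ := exists_seg g U
  choose S hS using exists_mks g U
  have hX : x₀ ∈ XX U := by
    intro i hi
    obtain ⟨y, hy, hd⟩ := hblk i
    exact h.free' i x₀ hi y (closure_mono (h.sub i) hy) hd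
  have hX' : x₁ ∈ XX U := by
    intro i hi
    obtain ⟨y, hy, hd⟩ := hblk' i
    exact h.free' i x₁ hi y (closure_mono (h.sub i) hy) hd
  have hall : ∀ i ∈ C, i ∈ BB g pal U x₀ := fun i hi =>
    h.BB_end hX hin ((hb.conn i x₀ (hx i hi)).mono (h.sub i))
  have hall' : ∀ i ∈ C', i ∈ BB g pal U x₁ := fun i hi =>
    h.BB_end hX' hin' ((hb.conn i x₁ (hx' i hi)).mono (h.sub i))
  have hr : 0 < dist x₀ x₁ / 2 := half_pos (dist_pos.2 hne)
  obtain ⟨M, κ, hM⟩ := exists_mp hr hC hx fun i hi => hX i (h.sub i hi)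
  obtain ⟨M', κ', hM'⟩ := exists_mp hr hC' hx' fun i hi => hX' i (h.sub i hi)
  have hnM : ∀ y, dist y x₀ < dist x₀ x₁ / 2 → y ∉ M' := by
    intro y hy hyM
    have h1 := hM'.inB y hyM
    have h2 := dist_triangle_left x₀ x₁ y
    linarith
  have hnM' : ∀ y ∈ M', ¬ dist y x₀ < dist x₀ x₁ / 2 := fun y hy hc => hnM y hc hy
  set κ₂ : ℂ → Fin 6 := fun y => if dist y x₀ < dist x₀ x₁ / 2 then κ y else κ' y with hκ₂
  have e1 : ∀ y ∈ M, κ₂ y = κ y := fun y hy => if_pos (hM.inB y hy)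
  have e2 : ∀ y ∈ M', κ₂ y = κ' y := fun y hy => if_neg (hnM' y hy)
  have hMV : ∀ m ∈ M ∪ M', m ∈ V (κ₂ m) := by
    rintro m (hm | hm)
    · rw [e1 m hm]; exact hM.inV m hm
    · rw [e2 m hm]; exact hM'.inV m hm
  have hMX : ∀ m ∈ M ∪ M', m ∉ XX U := fun m hm hc => hc (κ₂ m) (h.sub _ (hMV m hm))
  have hDc : IsClosed (XX U ∪ (M ∪ M')) := by
    have h1 : XX U ∪ (M ∪ M') = XX U ∪ (insert x₀ M ∪ insert x₁ M') := by
      ext y
      constructor
      · rintro (hy | hy | hy)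
        · exact Or.inl hy
        · exact Or.inr (Or.inl (Or.inr hy))
        · exact Or.inr (Or.inr (Or.inr hy))
      · rintro (hy | (rfl | hy) | (rfl | hy))
        · exact Or.inl hy
        · exact Or.inl hX
        · exact Or.inr (Or.inl hy)
        · exact Or.inl hX'
        · exact Or.inr (Or.inr hy)
    rw [h1]
    exact h.isClosed_XX.union (hM.cl.union hM'.cl)
  have hnot : ∀ {y x : ℂ} {N : Set ℂ}, IsClosed (insert x N) → y ∉ N → y ≠ x →
      ∀ᶠ w in 𝓝 y, w ∉ N := by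
    intro y x N hN hy hyx
    have h1 : y ∉ insert x N := by
      rintro (h2 | h2)
      · exact hyx h2
      · exact hy h2
    filter_upwards [hN.isOpen_compl.mem_nhds h1] with w hw hwN
    exact hw (Or.inr hwN)
  have hMn : ∀ m ∈ M, m ≠ x₁ := by
    rintro m hm rfl
    have h1 := hM.inB m hm
    rw [dist_comm] at h1
    have := dist_pos.2 hne
    linarith
  have hMn' : ∀ m ∈ M', m ≠ x₀ := by
    rintro m hm rfl
    have h1 := hM'.inB m hm
    have := dist_pos.2 hne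
    linarith
  have hiso : ∀ m ∈ M ∪ M', ∀ᶠ y in 𝓝 m, y ∈ M ∪ M' → y = m := by
    rintro m (hm | hm)
    · have h1 : m ∉ M' := hnM m (hM.inB m hm)
      filter_upwards [hM.iso m hm, hnot hM'.cl h1 (hMn m hm)] with y hy1 hy2 hy
      exact hy1 (hy.resolve_right hy2)
    · have h1 : m ∉ M := fun hc => hnM m (hM.inB m hc) hm
      filter_upwards [hM'.iso m hm, hnot hM.cl h1 (hMn' m hm)] with y hy1 hy2 hy
      exact hy1 (hy.resolve_left hy2)
  have hBB : ∀ x ∈ XX U, ∀ᶠ y in 𝓝 x, y ∈ M ∪ M' → κ₂ y ∈ BB g pal U x := by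
    intro x hxX
    have hxM : x ∉ M := fun hc => hMX x (Or.inl hc) hxX
    have hxM' : x ∉ M' := fun hc => hMX x (Or.inr hc) hxX
    have k1 : ∀ᶠ y in 𝓝 x, y ∈ M → κ₂ y ∈ BB g pal U x := by
      by_cases hx0 : x = x₀
      · subst hx0
        filter_upwards with y hy
        rw [e1 y hy]
        exact hall _ (hM.inC y hy)
      · filter_upwards [hnot hM.cl hxM hx0] with y hy hyM
        exact absurd hyM hy
    have k2 : ∀ᶠ y in 𝓝 x, y ∈ M' → κ₂ y ∈ BB g pal U x := by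
      by_cases hx1 : x = x₁
      · subst hx1
        filter_upwards with y hy
        rw [e2 y hy]
        exact hall' _ (hM'.inC y hy)
      · filter_upwards [hnot hM'.cl hxM' hx1] with y hy hyM
        exact absurd hyM hy
    filter_upwards [k1, k2] with y hy1 hy2 hy
    rcases hy with hy | hy
    · exact hy1 hy
    · exact hy2 hy
  obtain ⟨T, hI, hL, hCt, hT⟩ := h.exists_frame_g hb hs hS hMX hDc hiso hMV hBB
  refine ⟨U, T, hI, hL, hCt, h.sub, fun i hi => ?_, fun i hi => ?_⟩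
  · refine (hI.closed i).closure_subset (mem_closure_iff_frequently.2 ?_)
    refine (hM.freq i hi).mono fun y hy => ?_
    have h1 := hT y (Or.inl hy.1)
    rw [e1 y hy.1, hy.2] at h1
    exact h1
  · refine (hI.closed i).closure_subset (mem_closure_iff_frequently.2 ?_)
    refine (hM'.freq i hi).mono fun y hy => ?_
    have h1 := hT y (Or.inr hy.1)
    rw [e2 y hy.1, hy.2] at h1
    exact h1

/-- **Two points of a planar map which see all colours.** -/
theorem PlMap.exists_crit2 {ι κ : Type*} {g : ι → ℝ → EuclideanSpace ℝ (Fin 2)}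
    {G : κ → Set (EuclideanSpace ℝ (Fin 2))} (h : PlMap g G) (c : κ → Fin 6)
    (hc : ∀ f f', c f = c f' → ∀ x ∈ G f, ∀ y ∈ G f', dist x y ≠ 1)
    (x x' : EuclideanSpace ℝ (Fin 2)) (hne : x ≠ x')
    (hbl : ∀ i, ∃ f, c f = i ∧ ∃ y ∈ closure (G f), dist x y = 1)
    (hbl' : ∀ i, ∃ f, c f = i ∧ ∃ y ∈ closure (G f), dist x' y = 1)
    {C C' : Set (Fin 6)} (hC : 3 ≤ C.ncard) (hC' : 3 ≤ C'.ncard)
    (hx : ∀ i ∈ C, ∃ f, c f = i ∧ x ∈ closure (G f))
    (hx' : ∀ i ∈ C', ∃ f, c f = i ∧ x' ∈ closure (G f)) :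
    ∃ U T z v, MapC U T ∧ dist z v = dist x x' ∧ C ⊆ T z ∧ C' ⊆ T v := by
  classical
  let φ : ℂ ≃ₗᵢ[ℝ] EuclideanSpace ℝ (Fin 2) := Complex.orthonormalBasisOneI.repr
  have hP := h.toPMap φ
  have hcl : ∀ f, closure (φ ⁻¹' G f) = φ ⁻¹' closure (G f) := fun f =>
    (φ.toHomeomorph.preimage_closure (G f)).symm
  obtain ⟨pal, hb⟩ := hP.exists_base c fun f f' hff x hx y hy => by
    rw [← φ.dist_map]
    exact hc f f' hff _ hx _ hy
  have hcol : ∀ f y, y ∈ closure (G f) →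
      φ.symm y ∈ closure (colV (fun f => φ ⁻¹' G f) c (c f)) := by
    intro f y hy
    have h1 : φ.symm y ∈ closure (φ ⁻¹' G f) := by
      rw [hcl f, mem_preimage, φ.apply_symm_apply]
      exact hy
    exact closure_mono (fun v hv => mem_colV.2 ⟨f, rfl, hv⟩) h1
  -- inner points of edges have at most two colours
  have hin : ∀ (x : EuclideanSpace ℝ (Fin 2)) (C : Set (Fin 6)), 3 ≤ C.ncard →
      (∀ i ∈ C, ∃ f, c f = i ∧ x ∈ closure (G f)) →
      ∀ e, ∀ u ∈ Ioo (0 : ℝ) 1, φ.symm (g e u) ≠ φ.symm x := by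
    intro x C hC hx e u hu he
    have he' : g e u = x := φ.symm.injective he
    obtain ⟨a, b, hab⟩ := h.sides e
    have h1 : C ⊆ {c a, c b} := by
      intro i hi
      obtain ⟨f, hf, hx⟩ := hx i hi
      rw [← he'] at hx
      rcases (hab u hu f).1 hx with rfl | rfl
      · exact Or.inl hf.symm
      · exact Or.inr hf.symm
    have h2 := Set.ncard_le_ncard h1 (Set.toFinite _)
    have h3 := Set.ncard_insert_le (c a) {c b}
    rw [Set.ncard_singleton] at h3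
    omega
  have hCne : ∀ C : Set (Fin 6), 3 ≤ C.ncard → C.Nonempty := by
    intro C hC
    rw [Set.nonempty_iff_ne_empty]
    rintro rfl
    simp at hC
  have hcl' : ∀ (x : EuclideanSpace ℝ (Fin 2)) (C : Set (Fin 6)),
      (∀ i ∈ C, ∃ f, c f = i ∧ x ∈ closure (G f)) →
      ∀ i ∈ C, φ.symm x ∈ closure (colV (fun f => φ ⁻¹' G f) c i) := by
    intro x C hx i hi
    obtain ⟨f, rfl, hx⟩ := hx i hi
    exact hcol f x hx
  have hbl'' : ∀ (x : EuclideanSpace ℝ (Fin 2)),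
      (∀ i, ∃ f, c f = i ∧ ∃ y ∈ closure (G f), dist x y = 1) →
      ∀ i, ∃ y ∈ closure (colV (fun f => φ ⁻¹' G f) c i), dist (φ.symm x) y = 1 := by
    intro x hbl i
    obtain ⟨f, rfl, y, hy, hd⟩ := hbl i
    exact ⟨φ.symm y, hcol f y hy, by rw [φ.symm.dist_map]; exact hd⟩
  obtain ⟨U, T, hI, hL, hCt, -, hT, hT'⟩ := hb.exists_pair
    (fun he => hne (φ.symm.injective he)) (hin x C hC hx) (hin x' C' hC' hx') (hCne C hC)
    (hCne C' hC') (hcl' x C hx) (hcl' x' C' hx') (hbl'' x hbl) (hbl'' x' hbl')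
  exact ⟨U, T, φ.symm x, φ.symm x', ⟨hI, hL, hCt⟩, φ.symm.dist_map x x', hT, hT'⟩

/-- **No critical unit pair with five and four colours**, if no connected frame has a five-coloured
point at distance one from a point with at least four colours. -/
theorem PlMap.pair_of (h6 : ∀ (U : Fin 6 → Set ℂ) (T : ℂ → Set (Fin 6)), MapC U T → ∀ z,
      (T z).ncard ≤ 5)
    (hX : ∀ (U : Fin 6 → Set ℂ) (T : ℂ → Set (Fin 6)), MapC U T → (∀ z, (T z).ncard ≤ 5) →
      ∀ z v, dist z v = 1 → (T z).ncard = 5 → 4 ≤ (T v).ncard → False)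
    {ι κ : Type*} {g : ι → ℝ → EuclideanSpace ℝ (Fin 2)}
    {G : κ → Set (EuclideanSpace ℝ (Fin 2))} (h : PlMap g G) (c : κ → Fin 6)
    (hc : ∀ f f', c f = c f' → ∀ x ∈ G f, ∀ y ∈ G f', dist x y ≠ 1)
    (x x' : EuclideanSpace ℝ (Fin 2)) (hd : dist x x' = 1)
    (hx : 5 ≤ {i | ∃ f, c f = i ∧ x ∈ closure (G f)}.ncard)
    (hx' : 4 ≤ {i | ∃ f, c f = i ∧ x' ∈ closure (G f)}.ncard) :
    ∃ i, (∀ f, c f = i → ∀ y ∈ closure (G f), dist x y ≠ 1) ∨
      ∀ f, c f = i → ∀ y ∈ closure (G f), dist x' y ≠ 1 := by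
  classical
  by_contra hcon
  push Not at hcon
  have hne : x ≠ x' := by
    rintro rfl
    rw [dist_self] at hd
    norm_num at hd
  obtain ⟨U, T, z, v, hM, hzv, h1, h2⟩ := h.exists_crit2 c hc x x' hne
    (fun i => by
      obtain ⟨⟨f, hf, y, hy, hd⟩, -⟩ := hcon i
      exact ⟨f, hf, y, hy, hd⟩)
    (fun i => by
      obtain ⟨-, f, hf, y, hy, hd⟩ := hcon i
      exact ⟨f, hf, y, hy, hd⟩) (C := {i | ∃ f, c f = i ∧ x ∈ closure (G f)})
    (C' := {i | ∃ f, c f = i ∧ x' ∈ closure (G f)}) (by omega) (by omega) (fun i hi => hi)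
    (fun i hi => hi)
  have h3 := Set.ncard_le_ncard h1 (Set.toFinite _)
  have h4 := Set.ncard_le_ncard h2 (Set.toFinite _)
  have h5 := h6 U T hM z
  exact hX U T hM (h6 U T hM) z v (hzv.trans hd) (by omega) (by omega)

end Vale.Agent.P032.H355
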