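import Vale.Agent.P032X.H355.Z
import Vale.Agent.P032W.S5.H410.MinA

/-!
# P032: one colour near finitely many points off `XX U`

`MapC.fix`: for a connected frame `MapC U T` and a finite set `F` there is a connected frame
`MapC U T₁` with `T₁ = T` on `XX U`, such that near every point of `F` off `XX U` all palettes `T₁`
are one fixed single colour.
-/

open Set Filter Topology Metric

noncomputable section

namespace Vale.Agent.P032.H355

open Vale.Agent.P032.Six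

variable {U : Fin 6 → Set ℂ} {T : ℂ → Set (Fin 6)}

/-- off `XX U` the palettes have at most three colours -/
theorem Irr_off_three (h : Irr U T) {x : ℂ} (hx : x ∉ XX U) : (T x).ncard ≤ 3 :=
  (Set.ncard_le_ncard (fun i hi => h.off x hx i hi) (Set.toFinite _)).trans (h.mx.K0_three x)

/-- the change near one point -/
theorem Irr_fix_one (h : Irr U T) {w : ℂ} {i : Fin 6} {r : ℝ}
    (hB : closedBall w r ⊆ U i) : ∃ T₁ : ℂ → Set (Fin 6), Irr U T₁ ∧
      (∀ x, r < dist x w → T₁ x = T x) ∧ (∀ x, dist x w < r → T₁ x = {i}) ∧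
      ∀ x, T₁ x ⊆ insert i (T x) := by
  have hBX : ∀ x ∈ closedBall w r, x ∉ XX U := by
    intro x hx hX
    simp only [XX] at hX
    exact hX i (hB hx)
  obtain ⟨T₁, hc, hn, hs, hp⟩ := S5.H410.exists_pure
    (fun x => {j | (j = i ∧ dist x w ≤ r) ∨ (j ∈ T x ∧ r ≤ dist x w)})
    (fun j => by
      have h1 : {x : ℂ | j ∈ {j : Fin 6 | (j = i ∧ dist x w ≤ r) ∨ (j ∈ T x ∧ r ≤ dist x w)}} =
          ({x | j = i} ∩ closedBall w r) ∪ ({x | j ∈ T x} ∩ {x | r ≤ dist x w}) := by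
        ext x
        simp
      rw [h1]
      exact ((isClosed_const).inter isClosed_closedBall).union
        ((h.closed j).inter (isClosed_le continuous_const (continuous_id.dist continuous_const))))
    (fun x => by
      rcases le_total (dist x w) r with h1 | h1
      · exact ⟨i, Or.inl ⟨rfl, h1⟩⟩
      · obtain ⟨j, hj⟩ := h.ne x
        exact ⟨j, Or.inr ⟨hj, h1⟩⟩)
  have hout : ∀ x, r < dist x w → T₁ x = T x := by
    intro x hx
    refine Subset.antisymm (fun j hj => ?_) (fun j hj => ?_)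
    · rcases hs x hj with ⟨-, h1⟩ | ⟨h1, -⟩
      · exact absurd h1 (not_le.2 hx)
      · exact h1
    · have h1 : ∀ᶠ y in 𝓝 x, r < dist y w :=
        (continuous_id.dist continuous_const).continuousAt.eventually (lt_mem_nhds hx)
      have h2 : ∃ᶠ y in 𝓝 x, j ∈ T₁ y := by
        refine ((h.pure x j hj).and_eventually h1).mono ?_
        rintro y ⟨hy, hyr⟩
        obtain ⟨m, hm⟩ := hn y
        rcases hs y hm with ⟨-, h3⟩ | ⟨h3, -⟩
        · exact absurd h3 (not_le.2 hyr)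
        · rw [hy] at h3
          have : m = j := h3
          exact this ▸ hm
      exact (hc j).closure_subset (mem_closure_iff_frequently.2 h2)
  refine ⟨T₁, ⟨h.mx, ?_, hc, hn, ?_, ?_, hp⟩, hout, ?_, ?_⟩
  · intro j x hx hfree
    by_cases hX : x ∈ XX U
    · have h1 : r < dist x w := by
        by_contra hcon
        exact hBX x (mem_closedBall.2 (not_lt.1 hcon)) hX
      refine h.max j x (Or.inr ?_) hfree
      rcases hx with hx | hx
      · exact absurd hX hx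
      · rwa [hout x h1] at hx
    · exact h.max j x (Or.inl hX) hfree
  · intro x j hj
    rcases hs x hj with ⟨rfl, h1⟩ | ⟨h1, -⟩
    · exact subset_closure (hB (mem_closedBall.2 h1))
    · exact h.sub x h1
  · intro x hx j hj
    rcases hs x hj with ⟨rfl, h1⟩ | ⟨h1, -⟩
    · exact hB (mem_closedBall.2 h1)
    · exact h.off x hx j h1
  · intro x hx
    refine Set.eq_singleton_iff_nonempty_unique_mem.2 ⟨hn x, fun j hj => ?_⟩
    rcases hs x hj with ⟨h1, -⟩ | ⟨-, h1⟩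
    · exact h1
    · exact absurd h1 (not_le.2 hx)
  · intro x j hj
    rcases hs x hj with ⟨h1, -⟩ | ⟨h1, -⟩
    · exact Or.inl h1
    · exact Or.inr h1

/-- the step: one more point -/
theorem MapC.fix_step (h : MapC U T) {w : ℂ} (hw : w ∉ XX U) {F : Set ℂ} (hF : F.Finite)
    (hwF : w ∉ F) : ∃ T₁ : ℂ → Set (Fin 6), MapC U T₁ ∧
      (∀ x ∈ XX U, ∀ᶠ y in 𝓝 x, T₁ y = T y) ∧
      (∃ i ∈ T w, ∀ᶠ y in 𝓝 w, T₁ y = {i}) ∧ ∀ x ∈ F, ∀ᶠ y in 𝓝 x, T₁ y = T y := by
  obtain ⟨i, hi⟩ := h.irr.ne w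
  have hwU : w ∈ U i := h.irr.off w hw i hi
  have hnF : Fᶜ ∈ 𝓝 w := hF.isClosed.isOpen_compl.mem_nhds hwF
  obtain ⟨r, hr, hB⟩ := Metric.nhds_basis_closedBall.mem_iff.1
    (inter_mem ((h.irr.mx.isOpen i).mem_nhds hwU) hnF)
  obtain ⟨T₁, h1, h2, h3, h4⟩ := Irr_fix_one h.irr (fun x hx => (hB hx).1)
  have hX : ∀ x ∈ XX U, r < dist x w := by
    intro x hx
    by_contra hcon
    have := (hB (mem_closedBall.2 (not_lt.1 hcon))).1
    simp only [XX] at hx
    exact hx i this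
  have hlf : {y | y ∈ XX U ∧ 3 ≤ (T₁ y).ncard} = {y | y ∈ XX U ∧ 3 ≤ (T y).ncard} := by
    ext y
    constructor
    · rintro ⟨a, b⟩
      rw [h2 y (hX y a)] at b
      exact ⟨a, b⟩
    · rintro ⟨a, b⟩
      rw [← h2 y (hX y a)] at b
      exact ⟨a, b⟩
  refine ⟨T₁, ⟨h1, ?_, ?_⟩, fun x hx => ?_, ⟨i, hi, ?_⟩, ?_⟩
  · intro x
    obtain ⟨t, ht, hfin⟩ := h.lf x
    refine ⟨t, ht, ?_⟩
    rw [hlf]
    exact hfin
  · intro x
    by_cases hx : x ∈ closedBall w r
    · obtain ⟨ε, hε, hb⟩ := Metric.isOpen_iff.1 (h.irr.mx.isOpen i) x (hB hx).1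
      filter_upwards [h.ctn x, ball_mem_nhds x hε] with y hy hyb j hj
      rcases h4 y hj with hj | hj
      · have hji : j = i := hj
        subst hji
        exact ⟨ball x ε, hb.trans subset_closure, (convex_ball x ε).isPreconnected,
          mem_ball_self hε, hyb, ⟨x, mem_ball_self hε, hb (mem_ball_self hε)⟩⟩
      · exact hy j hj
    · have h5 : ∀ᶠ y in 𝓝 x, y ∈ (closedBall w r)ᶜ :=
        isClosed_closedBall.isOpen_compl.mem_nhds hx
      filter_upwards [h.ctn x, h5] with y hy hyb j hj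
      rw [h2 y (by rw [mem_compl_iff, mem_closedBall, not_le] at hyb; exact hyb)] at hj
      exact hy j hj
  · filter_upwards [(continuous_id.dist continuous_const).continuousAt.eventually
      (lt_mem_nhds (hX x hx))] with y hy
    exact h2 y hy
  · filter_upwards [ball_mem_nhds w hr] with y hy
    exact h3 y hy
  · intro x hx
    have h5 : x ∉ closedBall w r := fun hc => (hB hc).2 hx
    have h6 : ∀ᶠ y in 𝓝 x, y ∈ (closedBall w r)ᶜ :=
      isClosed_closedBall.isOpen_compl.mem_nhds h5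
    filter_upwards [h6] with y hyb
    exact h2 y (by rw [mem_compl_iff, mem_closedBall, not_le] at hyb; exact hyb)

/-- **One colour near finitely many points off `XX U`**, no change near `XX U` -/
theorem MapC.fix_near (h : MapC U T) {F : Set ℂ} (hF : F.Finite) :
    ∃ T₁ : ℂ → Set (Fin 6), MapC U T₁ ∧ (∀ x ∈ XX U, ∀ᶠ y in 𝓝 x, T₁ y = T y) ∧
      ∀ x ∈ F, x ∉ XX U → ∃ i, ∀ᶠ y in 𝓝 x, T₁ y = {i} := by
  induction F, hF using Set.Finite.induction_on with
  | empty =>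
    exact ⟨T, h, fun x _ => Eventually.of_forall fun _ => rfl, fun x hx => absurd hx (notMem_empty x)⟩
  | @insert w F hwF hF ih =>
    obtain ⟨T₁, h1, h2, h3⟩ := ih
    by_cases hw : w ∈ XX U
    · refine ⟨T₁, h1, h2, fun x hx hxX => ?_⟩
      rcases hx with rfl | hx
      · exact absurd hw hxX
      · exact h3 x hx hxX
    · obtain ⟨T₂, g1, g2, ⟨i, -, g3⟩, g4⟩ := h1.fix_step hw hF hwF
      refine ⟨T₂, g1, fun x hx => ?_, fun x hx hxX => ?_⟩
      · filter_upwards [g2 x hx, h2 x hx] with y hy1 hy2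
        rw [hy1, hy2]
      rcases hx with rfl | hx
      · exact ⟨i, g3⟩
      · obtain ⟨j, hj⟩ := h3 x hx hxX
        refine ⟨j, ?_⟩
        filter_upwards [hj, g4 x hx] with y hy1 hy2
        rw [hy2, hy1]

/-- **One colour near finitely many points off `XX U`.** -/
theorem MapC.fix (h : MapC U T) {F : Set ℂ} (hF : F.Finite) :
    ∃ T₁ : ℂ → Set (Fin 6), MapC U T₁ ∧ (∀ x ∈ XX U, T₁ x = T x) ∧
      ∀ x ∈ F, x ∉ XX U → ∃ i, ∀ᶠ y in 𝓝 x, T₁ y = {i} := by
  obtain ⟨T₁, h1, h2, h3⟩ := h.fix_near hF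
  exact ⟨T₁, h1, fun x hx => (h2 x hx).self_of_nhds, h3⟩

/-- bounds on the palettes are kept -/
theorem fix_le {T₁ : ℂ → Set (Fin 6)} (h₁ : Irr U T₁) (he : ∀ x ∈ XX U, T₁ x = T x) {n : ℕ}
    (hn : 3 ≤ n) (hT : ∀ x, (T x).ncard ≤ n) (x : ℂ) : (T₁ x).ncard ≤ n := by
  by_cases hx : x ∈ XX U
  · rw [he x hx]
    exact hT x
  · exact (Irr_off_three h₁ hx).trans hn

/-- points with at least four colours are in `XX U` -/
theorem Irr_four_mem (h : Irr U T) {x : ℂ} (hx : 4 ≤ (T x).ncard) : x ∈ XX U := by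
  by_contra hX
  have := Irr_off_three h hX
  omega

/-- a point of the unit circle about `z` with a colour of `z` is in `XX U` -/
theorem Irr_circ_mem (h : Irr U T) {z p : ℂ} (hp : dist p z = 1) {i : Fin 6} (hi : i ∈ T p)
    (hz : i ∈ T z) : p ∈ XX U := h.mem_XX hp hi (h.sub z hz)

theorem fix_dpt {T₁ : ℂ → Set (Fin 6)} (h : Irr U T) (he : ∀ x ∈ XX U, T₁ x = T x)
    {z : ℂ} {a b c d : Fin 6} (hz : DPt T z a b c d) : DPt T₁ z a b c d := by
  have hc := dpt_card hz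
  have e0 : T₁ z = T z := he z (Irr_four_mem h hc.ge)
  have key : ∀ {p : ℂ} {i j : Fin 6}, i ∈ T z → Arc T z p {i, j} → Arc T₁ z p {i, j} := by
    intro p i j hi hp
    refine ⟨hp.1, ?_⟩
    filter_upwards [hp.2, self_mem_nhdsWithin] with q hq hqz
    rw [he q (Irr_circ_mem h (mem_sphere.1 hqz) (i := i) (by rw [hq]; simp) hi), hq]
  obtain ⟨p, hp⟩ := hz.arc1
  obtain ⟨q, hq⟩ := hz.arc2
  exact ⟨e0 ▸ hz.pal, hz.ac, hz.ad, hz.bc, hz.bd, hz.ab, hz.cd,
    ⟨p, key (by rw [hz.pal]; simp) hp⟩, ⟨q, key (by rw [hz.pal]; simp) hq⟩⟩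

theorem fix_only {T₁ : ℂ → Set (Fin 6)} (h : Irr U T) (h₁ : Irr U T₁)
    (he : ∀ x ∈ XX U, T₁ x = T x) {z : ℂ} {a b c d : Fin 6} (hz : 4 ≤ (T z).ncard)
    (ho : Only T z a b c d) : Only T₁ z a b c d := by
  have e0 : T₁ z = T z := he z (Irr_four_mem h hz)
  intro p hp h2 hs
  obtain ⟨i, hi⟩ := h₁.ne p
  have e1 : T₁ p = T p := he p (Irr_circ_mem h₁ hp hi (hs hi))
  rw [e1, e0] at hs
  rw [e1] at h2 ⊢
  exact ho p hp h2 hs

theorem fix_pd {T₁ : ℂ → Set (Fin 6)} (h : Irr U T) (h₁ : Irr U T₁)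
    (he : ∀ x ∈ XX U, T₁ x = T x) {z : ℂ} (hz : 4 ≤ (T z).ncard) (ho : Pd T z) : Pd T₁ z := by
  have e0 : T₁ z = T z := he z (Irr_four_mem h hz)
  have key : ∀ p, dist p z = 1 → T₁ p ⊆ T₁ z → T₁ p = T p := by
    intro p hp hs
    obtain ⟨i, hi⟩ := h₁.ne p
    exact he p (Irr_circ_mem h₁ hp hi (hs hi))
  intro p q hp hq h2 h2' hs hs'
  have e1 := key p hp hs
  have e2 := key q hq hs'
  rw [e1, e0] at hs
  rw [e2, e0] at hs'
  rw [e1] at h2 ⊢
  rw [e2] at h2' ⊢
  exact ho p q hp hq h2 h2' hs hs'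

end Vale.Agent.P032.H355
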