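import Vale.Agent.P032X.H355.Top

/-!
# P032: top of the theorem for planar maps, if there are no four-coloured points

`MapPr U T T'`: the two frames of a six-coloured planar map (`T` minimal at the points with at least
four colours, `T'` connected), without six-coloured points.
`PlMap.exists_pr`: existence, if no connected frame has a six-coloured point.
`no_map_of_four`: no six-coloured planar map, from the blocks `h6` (no six-coloured point), `h4` (no
point with exactly four colours) and `h55` (no two five-coloured points at distance one).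
-/

open Set Filter Topology Metric

noncomputable section

namespace Vale.Agent.P032.H355

open Vale.Agent.P032.Six

/-- the two frames of a six-coloured planar map -/
structure MapPr (U : Fin 6 → Set ℂ) (T T' : ℂ → Set (Fin 6)) : Prop where
  fr : MapFr U T
  cn : MapC U T'
  eqn : ∀ z, 4 ≤ (T z).ncard → (∀ᶠ w in 𝓝 z, T w = T' w) ∨ (T z).ncard < (T' z).ncard
  le' : ∀ z, (T' z).ncard ≤ 5
  subX : ∀ x ∈ XX U, T x ⊆ T' x
  nmd : ∀ z v, 4 ≤ (T z).ncard → 4 ≤ (T v).ncard → dist v z = 1 → ∀ c ∈ Cf,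
    (∀ᶠ w in 𝓝 (z + (v - z) * c), T w = T' w) ∨
    (4 ≤ (T' (z + (v - z) * c)).ncard ∧
      (T (z + (v - z) * c)).ncard < (T' (z + (v - z) * c)).ncard)
  df : ∀ x, ∃ t ∈ 𝓝 x, ({y | y ∈ XX U ∧ T y ≠ T' y} ∩ t).Finite

namespace MapPr

variable {U : Fin 6 → Set ℂ} {T T' : ℂ → Set (Fin 6)}

theorem alt (h : MapPr U T T') (z : ℂ) (hz : 4 ≤ (T z).ncard) :
    (∀ᶠ w in 𝓝 z, T w ⊆ T' w) ∨ (T z).ncard < (T' z).ncard :=
  (h.eqn z hz).imp_left fun h1 => h1.mono fun _ hw => hw.subset

/-- near a point with at least four colours in the minimal frame, which has not more colours in the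
connected frame, both frames are equal -/
theorem eq_near (h : MapPr U T T') {z : ℂ} (hz : 4 ≤ (T z).ncard)
    (hz' : (T' z).ncard ≤ (T z).ncard) : ∀ᶠ w in 𝓝 z, T w = T' w := by
  rcases h.eqn z hz with h1 | h1
  · exact h1
  · omega

theorem le (h : MapPr U T T') (z : ℂ) : (T z).ncard ≤ 5 := by
  by_contra hc
  push Not at hc
  rcases h.alt z (by omega) with h1 | h1
  · have h2 := Set.ncard_le_ncard h1.self_of_nhds (Set.toFinite _)
    have := h.le' z
    omega
  · have := h.le' z
    omega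

/-- near a point with as many colours as in the connected frame all points of a colour are
connected to the point -/
theorem ctn_of (h : MapPr U T T') {z : ℂ} (h4 : 4 ≤ (T z).ncard)
    (hz : (T' z).ncard ≤ (T z).ncard) : ∀ᶠ w in 𝓝 z, ∀ i ∈ T w, Cnn U z w i := by
  rcases h.alt z h4 with h1 | h1
  · filter_upwards [h1, h.cn.ctn z] with w hw1 hw2 i hi
    exact hw2 i (hw1 hi)
  · omega

theorem ctn5 (h : MapPr U T T') {z : ℂ} (h5 : 5 ≤ (T z).ncard) :
    ∀ᶠ w in 𝓝 z, ∀ i ∈ T w, Cnn U z w i :=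
  h.ctn_of (by omega) ((h.le' z).trans h5)

/-- near a four-coloured point all points of a colour are connected to it, or it is five-coloured
in the connected frame -/
theorem ctn4 (h : MapPr U T T') {z : ℂ} (h4 : (T z).ncard = 4) :
    (∀ᶠ w in 𝓝 z, ∀ i ∈ T w, Cnn U z w i) ∨ (T' z).ncard = 5 := by
  rcases h.alt z h4.ge with h1 | h1
  · left
    filter_upwards [h1, h.cn.ctn z] with w hw1 hw2 i hi
    exact hw2 i (hw1 hi)
  · right
    have := h.le' z
    omega

/-- if there is no four-coloured point, there are two five-coloured points at distance one -/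
theorem exists_pair55 (h : MapPr U T T') (h4 : ∀ z, (T z).ncard ≠ 4) :
    ∃ z v, dist z v = 1 ∧ (T z).ncard = 5 ∧ (T v).ncard = 5 := by
  by_contra hcon
  push Not at hcon
  refine S5.H843.core5 S5.H229.no_five h.fr.irr h.fr.mn h.le fun z v hzv hv hz => ?_
  have h1 := h.le z
  have h2 := h.le v
  have h3 := h4 v
  rcases hz with hz | ⟨a, b, c, d, hz⟩
  · exact hcon z v hzv (by omega) (by omega)
  · refine h4 z ?_
    rw [hz.pal, Set.ncard_eq_toFinset_card']
    have e1 := hz.ab; have e2 := hz.ac; have e3 := hz.ad; have e4 := hz.bc; have e5 := hz.bd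
    have e6 := hz.cd
    simp [e1, e2, e3, e4, e5, e6]

/-- there are a point `z` with five colours or a two-pair point `z`, and a point `v` at distance one
with at least four colours -/
theorem exists_pair (h : MapPr U T T') : ∃ z v, dist z v = 1 ∧ 4 ≤ (T v).ncard ∧
    ((T z).ncard = 5 ∨ ∃ a b c d, DPt T z a b c d) := by
  by_contra hcon
  push Not at hcon
  refine S5.H843.core5 S5.H229.no_five h.fr.irr h.fr.mn h.le fun z v hzv hv hz => ?_
  obtain ⟨h1, h2⟩ := hcon z v hzv hv
  rcases hz with hz | ⟨a, b, c, d, hz⟩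
  · have := h.le z
    omega
  · exact h2 a b c d hz

/-- an arc of a finite set of points: there are other points on every arc of a circle -/
theorem exists_off_finite {z p : ℂ} (hp : dist p z = 1) {D : Set ℂ} (hD : D.Finite) {V : Set ℂ}
    (hV : V ∈ 𝓝 p) : ∃ q ∈ V, dist q z = 1 ∧ q ∉ D := by
  obtain ⟨t, ht⟩ := exists_cis (u := p - z) (by rw [← dist_eq_norm]; exact hp)
  have hpt : p = z + cis t := by rw [← ht]; ring
  have hc : Continuous fun s : ℝ => z + cis s := continuous_const.add continuous_cis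
  have h1 : ∀ᶠ s in 𝓝 t, z + cis s ∈ V := (hc.tendsto t).eventually (by rw [← hpt]; exact hV)
  obtain ⟨η, hη, hball⟩ := Metric.eventually_nhds_iff.1 h1
  by_contra hcon
  push Not at hcon
  set m := min η 1 with hm
  have hm0 : 0 < m := lt_min hη one_pos
  have hinj : InjOn (fun s : ℝ => z + cis s) (Ioo t (t + m)) := by
    intro s hs s' hs' he
    have h2 : cis s = cis s' := add_left_cancel he
    by_contra hne
    have h3 := congrArg Complex.re h2
    have h4 := congrArg Complex.im h2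
    rw [cis_re, cis_re] at h3
    rw [cis_im, cis_im] at h4
    have h5 : Real.sin (s' - s) = 0 := by
      rw [Real.sin_sub, h3, h4]
      ring
    have h6 : m ≤ 1 := min_le_right _ _
    have hpi := Real.pi_gt_three
    rcases lt_or_gt_of_ne hne with h7 | h7
    · have := Real.sin_pos_of_pos_of_lt_pi (x := s' - s) (by linarith) (by
        linarith [hs.1, hs'.2])
      linarith
    · have := Real.sin_pos_of_pos_of_lt_pi (x := s - s') (by linarith) (by
        linarith [hs'.1, hs.2])
      rw [← neg_sub, Real.sin_neg] at h5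
      linarith
  have hinf : ((fun s : ℝ => z + cis s) '' Ioo t (t + m)).Infinite :=
    (Ioo_infinite (by linarith)).image hinj
  refine hinf (hD.subset ?_)
  rintro _ ⟨s, hs, rfl⟩
  refine hcon _ (hball ?_) (dist_add_cis z s)
  rw [Real.dist_eq, abs_lt]
  have := min_le_left η 1
  constructor <;> linarith [hs.1, hs.2]

/-- an exact arc of the unit circle about `z` in the first frame is one in the second frame -/
theorem arc (h : MapPr U T T') {z p : ℂ} {P : Set (Fin 6)} (hA : Arc T z p P)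
    (hP2 : P.ncard = 2) (hP : P ⊆ T z) (hP' : P ⊆ T' z) : ∃ p', Arc T' z p' P := by
  obtain ⟨t, ht, hfin⟩ := h.df p
  obtain ⟨V, hV, hVs⟩ := mem_nhdsWithin_iff_exists_mem_nhds_inter.1 hA.2
  obtain ⟨q, hq, hqz, hqD⟩ := exists_off_finite hA.1 hfin (inter_mem ht hV)
  have hTq : T q = P := hVs ⟨hq.2, hqz⟩
  obtain ⟨i, hi⟩ : P.Nonempty := Set.nonempty_of_ncard_ne_zero (by omega)
  have hX : q ∈ XX U := h.fr.irr.mem_XX hqz (hTq ▸ hi) (h.fr.irr.sub z (hP hi))
  have hTq' : T' q = P := by
    by_contra hne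
    exact hqD ⟨⟨hX, by rw [hTq]; exact Ne.symm hne⟩, hq.1⟩
  refine ⟨q, hqz, ?_⟩
  have h1 := h.cn.irr.near_exact (z := z) (y := q) (by rw [hTq', hP2]) (by rw [hTq']; exact hP')
  rw [hTq'] at h1
  exact h1

theorem le_of (h : MapPr U T T') {z : ℂ} (h4 : 4 ≤ (T z).ncard) : (T z).ncard ≤ (T' z).ncard := by
  rcases h.alt z h4 with h1 | h1
  · exact Set.ncard_le_ncard h1.self_of_nhds (Set.toFinite _)
  · exact h1.le

/-- a two-pair point of the first frame which has four colours in the second frame is a two-pair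
point of the second frame -/
theorem dpt (h : MapPr U T T') {z : ℂ} {a b c d : Fin 6} (hz : DPt T z a b c d)
    (h4 : (T' z).ncard ≤ 4) : DPt T' z a b c d := by
  have hc : (T z).ncard = 4 := by
    rw [hz.pal, Set.ncard_eq_toFinset_card']
    have e1 := hz.ab; have e2 := hz.ac; have e3 := hz.ad; have e4 := hz.bc; have e5 := hz.bd
    have e6 := hz.cd
    simp [e1, e2, e3, e4, e5, e6]
  have hsub : T z ⊆ T' z := by
    rcases h.alt z hc.ge with h1 | h1
    · exact h1.self_of_nhds
    · omega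
  have he : T z = T' z := Set.eq_of_subset_of_ncard_le hsub (by omega) (Set.toFinite _)
  have hab : ({a, b} : Set (Fin 6)) ⊆ T z := by
    rw [hz.pal]
    rintro i (rfl | rfl) <;> simp
  have hcd : ({c, d} : Set (Fin 6)) ⊆ T z := by
    rw [hz.pal]
    rintro i (rfl | rfl) <;> simp
  obtain ⟨p, hp⟩ := hz.arc1
  obtain ⟨q, hq⟩ := hz.arc2
  exact ⟨he ▸ hz.pal, hz.ac, hz.ad, hz.bc, hz.bd, hz.ab, hz.cd,
    h.arc hp (Set.ncard_pair hz.ab) hab (hab.trans hsub),
    h.arc hq (Set.ncard_pair hz.cd) hcd (hcd.trans hsub)⟩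

/-- **The pair in the connected frame.** -/
theorem exists_pairC (h : MapPr U T T') : ∃ z v, dist z v = 1 ∧ 4 ≤ (T' v).ncard ∧
    ((T' z).ncard = 5 ∨ (∃ a b c d, DPt T' z a b c d) ∧ (T' v).ncard = 4) := by
  obtain ⟨z, v, hzv, hv, hz⟩ := h.exists_pair
  have hv' := h.le_of hv
  have hz4 : 4 ≤ (T z).ncard := by
    rcases hz with hz | ⟨a, b, c, d, hz⟩
    · omega
    · rw [hz.pal, Set.ncard_eq_toFinset_card']
      have e1 := hz.ab; have e2 := hz.ac; have e3 := hz.ad; have e4 := hz.bc; have e5 := hz.bd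
      have e6 := hz.cd
      simp [e1, e2, e3, e4, e5, e6]
  have hz' := h.le_of hz4
  have h5 := h.le' z
  have h6 := h.le' v
  by_cases hz5 : (T' z).ncard = 5
  · exact ⟨z, v, hzv, by omega, Or.inl hz5⟩
  by_cases hv5 : (T' v).ncard = 5
  · exact ⟨v, z, by rw [dist_comm]; exact hzv, by omega, Or.inl hv5⟩
  rcases hz with hz | ⟨a, b, c, d, hz⟩
  · omega
  · exact ⟨z, v, hzv, by omega, Or.inr ⟨⟨a, b, c, d, h.dpt hz (by omega)⟩, by omega⟩⟩

end MapPr

/-- **The frames of a six-coloured planar map**, if there is no six-coloured point -/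
theorem PlMap.exists_pr (h6 : ∀ U T, MapC U T → ∀ z, ¬ ∀ i, i ∈ T z)
    {ι κ : Type*} {g : ι → ℝ → EuclideanSpace ℝ (Fin 2)}
    {G : κ → Set (EuclideanSpace ℝ (Fin 2))} (h : PlMap g G) (c : κ → Fin 6)
    (hc : ∀ f f', c f = c f' → ∀ x ∈ G f, ∀ y ∈ G f', dist x y ≠ 1) :
    ∃ U T T', MapPr U T T' := by
  obtain ⟨U, T, T', hU, hU', halt, hsub, hnmd, hdf⟩ := h.exists_frame' c hc
  refine ⟨U, T, T', hU, hU', halt, fun z => ?_, hsub, hnmd, hdf⟩
  by_contra hc
  push Not at hc
  have h1 : T' z = univ := Set.eq_of_subset_of_ncard_le (subset_univ _) (by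
    rw [Set.ncard_univ, Nat.card_eq_fintype_card, Fintype.card_fin]
    omega) (Set.toFinite _)
  exact h6 U T' hU' z fun i => by rw [h1]; exact mem_univ i

/-- if there is no two-pair point, there are a five-coloured point `z` and a point `v` at distance
one with four or five colours -/
theorem MapPr.exists_pairX {U : Fin 6 → Set ℂ} {T T' : ℂ → Set (Fin 6)} (h : MapPr U T T')
    (hD : ∀ z a b c d, ¬ DPt T z a b c d) :
    ∃ z v, dist z v = 1 ∧ (T z).ncard = 5 ∧ 4 ≤ (T v).ncard := by
  obtain ⟨z, v, h1, h2, h3⟩ := h.exists_pair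
  rcases h3 with h3 | ⟨a, b, c, d, h3⟩
  · exact ⟨z, v, h1, h3, h2⟩
  · exact absurd h3 (hD z a b c d)

/-- **No six-coloured planar map**, from blocks which exclude six-coloured points, two-pair points,
and points with at least four colours at distance one from a five-coloured point -/
theorem no_map_of_D (h6 : ∀ U T, MapC U T → ∀ z, ¬ ∀ i, i ∈ T z)
    (hD : ∀ U T T', MapPr U T T' → ∀ z a b c d, ¬ DPt T z a b c d)
    (hX : ∀ U T T', MapPr U T T' → (∀ z a b c d, ¬ DPt T z a b c d) →
      ∀ z v, dist z v = 1 → (T z).ncard = 5 → 4 ≤ (T v).ncard → False)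
    {ι κ : Type*} {g : ι → ℝ → EuclideanSpace ℝ (Fin 2)}
    {G : κ → Set (EuclideanSpace ℝ (Fin 2))} (h : PlMap g G) (c : κ → Fin 6) :
    ∃ f f', c f = c f' ∧ ∃ x ∈ G f, ∃ y ∈ G f', dist x y = 1 := by
  by_contra hcon
  push Not at hcon
  obtain ⟨U, T, T', hU⟩ := PlMap.exists_pr h6 h c hcon
  obtain ⟨z, v, hzv, hz, hv⟩ := hU.exists_pairX (hD U T T' hU)
  exact hX U T T' hU (hD U T T' hU) z v hzv hz hv

/-- the form with the second condition only for the two-pair points at distance one from a point with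
at least four colours -/
theorem no_map_of_DV (h6 : ∀ U T, MapC U T → ∀ z, ¬ ∀ i, i ∈ T z)
    (hD : ∀ U T T', MapPr U T T' → ∀ z a b c d, DPt T z a b c d →
      ∀ v, dist z v = 1 → 4 ≤ (T v).ncard → False)
    (hX : ∀ U T T', MapPr U T T' → ∀ z v, dist z v = 1 → (T z).ncard = 5 → 4 ≤ (T v).ncard → False)
    {ι κ : Type*} {g : ι → ℝ → EuclideanSpace ℝ (Fin 2)}
    {G : κ → Set (EuclideanSpace ℝ (Fin 2))} (h : PlMap g G) (c : κ → Fin 6) :
    ∃ f f', c f = c f' ∧ ∃ x ∈ G f, ∃ y ∈ G f', dist x y = 1 := by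
  by_contra hcon
  push Not at hcon
  obtain ⟨U, T, T', hU⟩ := PlMap.exists_pr h6 h c hcon
  obtain ⟨z, v, h1, h2, h3⟩ := hU.exists_pair
  rcases h3 with h3 | ⟨a, b, c, d, h3⟩
  · exact hX U T T' hU z v h1 h3 h2
  · exact hD U T T' hU z a b c d h3 v h1 h2

/-- **No six-coloured planar map**, from blocks which exclude six-coloured points, points with exactly
four colours, and pairs of five-coloured points at distance one -/
theorem no_map_of_four (h6 : ∀ U T, MapC U T → ∀ z, ¬ ∀ i, i ∈ T z)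
    (h4 : ∀ U T T', MapPr U T T' → ∀ z, (T z).ncard ≠ 4)
    (h55 : ∀ U T T', MapPr U T T' → (∀ z, (T z).ncard ≠ 4) →
      ∀ z v, dist z v = 1 → (T z).ncard = 5 → (T v).ncard = 5 → False)
    {ι κ : Type*} {g : ι → ℝ → EuclideanSpace ℝ (Fin 2)}
    {G : κ → Set (EuclideanSpace ℝ (Fin 2))} (h : PlMap g G) (c : κ → Fin 6) :
    ∃ f f', c f = c f' ∧ ∃ x ∈ G f, ∃ y ∈ G f', dist x y = 1 := by
  by_contra hcon
  push Not at hcon
  obtain ⟨U, T, T', hU⟩ := PlMap.exists_pr h6 h c hcon
  obtain ⟨z, v, hzv, hz, hv⟩ := hU.exists_pair55 (h4 U T T' hU)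
  exact h55 U T T' hU (h4 U T T' hU) z v hzv hz hv

/-- **No six-coloured planar map, from blocks in the connected frame only** (`Irr`, locally finite
three-coloured points, near every point all points of a colour are connected to it): no six-coloured
point; no two-pair point; no point with at least four colours at distance one from a five-coloured
point, if there is no two-pair point -/
theorem no_map_of_C (h6 : ∀ U T, MapC U T → ∀ z, ¬ ∀ i, i ∈ T z)
    (hD : ∀ U T, MapC U T → (∀ z, (T z).ncard ≤ 5) → ∀ z a b c d, ¬ DPt T z a b c d)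
    (hX : ∀ U T, MapC U T → (∀ z, (T z).ncard ≤ 5) → (∀ z a b c d, ¬ DPt T z a b c d) →
      ∀ z v, dist z v = 1 → (T z).ncard = 5 → 4 ≤ (T v).ncard → False)
    {ι κ : Type*} {g : ι → ℝ → EuclideanSpace ℝ (Fin 2)}
    {G : κ → Set (EuclideanSpace ℝ (Fin 2))} (h : PlMap g G) (c : κ → Fin 6) :
    ∃ f f', c f = c f' ∧ ∃ x ∈ G f, ∃ y ∈ G f', dist x y = 1 := by
  by_contra hcon
  push Not at hcon
  obtain ⟨U, T, T', hU⟩ := PlMap.exists_pr h6 h c hcon
  obtain ⟨z, v, hzv, hv, hz⟩ := hU.exists_pairC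
  have hnD := hD U T' hU.cn hU.le'
  rcases hz with hz | ⟨⟨a, b, c', d, hz⟩, -⟩
  · exact hX U T' hU.cn hU.le' hnD z v hzv hz hv
  · exact hnD z a b c' d hz

/-- the form with two-pair points at distance one from a four-coloured point -/
theorem no_map_of_CV (h6 : ∀ U T, MapC U T → ∀ z, ¬ ∀ i, i ∈ T z)
    (hD : ∀ U T, MapC U T → (∀ z, (T z).ncard ≤ 5) → ∀ z a b c d, DPt T z a b c d →
      ∀ v, dist z v = 1 → (T v).ncard = 4 → False)
    (hX : ∀ U T, MapC U T → (∀ z, (T z).ncard ≤ 5) →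
      ∀ z v, dist z v = 1 → (T z).ncard = 5 → 4 ≤ (T v).ncard → False)
    {ι κ : Type*} {g : ι → ℝ → EuclideanSpace ℝ (Fin 2)}
    {G : κ → Set (EuclideanSpace ℝ (Fin 2))} (h : PlMap g G) (c : κ → Fin 6) :
    ∃ f f', c f = c f' ∧ ∃ x ∈ G f, ∃ y ∈ G f', dist x y = 1 := by
  by_contra hcon
  push Not at hcon
  obtain ⟨U, T, T', hU⟩ := PlMap.exists_pr h6 h c hcon
  obtain ⟨z, v, hzv, hv, hz⟩ := hU.exists_pairC
  rcases hz with hz | ⟨⟨a, b, c', d, hz⟩, hv4⟩
  · exact hX U T' hU.cn hU.le' z v hzv hz hv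
  · exact hD U T' hU.cn hU.le' z a b c' d hz v hzv hv4

end Vale.Agent.P032.H355
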