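import Vale.Agent.P032W.H355.LMin

/-!
# P032: local minimisation of a closed cover, without change at the other points

`exists_min_nearE`: as `exists_min_near`; the change is only near points of the locally finite set `Z`
which have more than `n` colours and whose palette is not minimal.  So near every other point of
`Z` the cover is the same.
-/

open Set Filter Topology Metric

noncomputable section

namespace Vale.Agent.P032.H355

open Vale.Agent.P032.S5.H410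

variable {ι : Type*} [Finite ι]

/-- **local minimisation**, near a point of `Z` either nothing is changed or the palette becomes
smaller -/
theorem exists_min_nearE {P : ℂ → Set ι} {K : Set ι → ℂ → Set ι}
    (hKs : ∀ s x, K s x ⊆ s) (hKc : ∀ s i, IsClosed {x | i ∈ K s x})
    (hK : ∀ s x, (∃ i ∈ s, i ∈ P x) → (K s x).Nonempty ∧ K s x ⊆ P x)
    {Z : Set ℂ} (hZ : ∀ x, ∃ t ∈ 𝓝 x, (Z ∩ t).Finite) {n : ℕ}
    (hZn : ∀ x, x ∉ Z → (P x).ncard ≤ n)
    {T : ℂ → Set ι} (hc : ∀ i, IsClosed {x | i ∈ T x}) (hn : ∀ x, (T x).Nonempty)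
    (hs : ∀ x, T x ⊆ P x) (hpu : ∀ x, ∀ i ∈ T x, ∃ᶠ w in 𝓝 x, T w = {i}) :
    ∃ T' : ℂ → Set ι, (∀ i, IsClosed {x | i ∈ T' x}) ∧ (∀ x, (T' x).Nonempty) ∧
      (∀ x, T' x ⊆ P x) ∧ (∀ x, ∀ i ∈ T' x, ∃ᶠ w in 𝓝 x, T' w = {i}) ∧
      (∀ x, n < (T' x).ncard → MinAt P (T' x) x) ∧
      ∀ x ∈ Z, (∀ᶠ w in 𝓝 x, T' w = T w) ∨
        (n < (T x).ncard ∧ T' x ⊆ T x ∧ (T' x).ncard < (T x).ncard) := by
  classical
  -- minimal palettes
  have hsel : ∀ z, ∃ s, s ⊆ T z ∧ Suff P s z ∧ MinAt P s z ∧ (MinAt P (T z) z → s = T z) := by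
    intro z
    by_cases hm : MinAt P (T z) z
    · exact ⟨T z, Subset.rfl, suff_self hc hn hs z, hm, fun _ => rfl⟩
    · obtain ⟨t, h1, h2, h3⟩ := exists_minAt (suff_self hc hn hs z)
      exact ⟨t, h1, h2, h3, fun h4 => absurd h4 hm⟩
  choose s hs1 hs2 hs3 hs4 using hsel
  -- radii
  have hr : ∀ z, ∃ r : ℝ, 0 < r ∧ r ≤ 1 ∧ (∀ y ∈ Z, dist y z ≤ r → y = z) ∧
      ∀ w, dist w z ≤ r → ∃ i ∈ s z, i ∈ P w := by
    intro z
    have h1 : ∀ᶠ y in 𝓝 z, y ∈ Z → y = z := by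
      obtain ⟨t, ht, hfin⟩ := hZ z
      have h2 : ((Z ∩ t) \ {z}).Finite := hfin.subset sdiff_subset
      filter_upwards [ht, h2.isClosed.isOpen_compl.mem_nhds (show z ∈ ((Z ∩ t) \ {z})ᶜ from
        fun h => h.2 rfl)] with y hy1 hy2 hyZ
      by_contra hne
      exact hy2 ⟨⟨hyZ, hy1⟩, hne⟩
    obtain ⟨ε, hε, hball⟩ := Metric.eventually_nhds_iff.1 (h1.and (hs2 z))
    refine ⟨min (ε / 2) 1, lt_min (half_pos hε) one_pos, min_le_right _ _, fun y hy hyz => ?_,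
      fun w hw => ?_⟩
    · exact (hball (lt_of_le_of_lt (hyz.trans (min_le_left _ _)) (half_lt_self hε))).1 hy
    · exact (hball (lt_of_le_of_lt (hw.trans (min_le_left _ _)) (half_lt_self hε))).2
  choose r hr0 hr1 hrZ hrs using hr
  set G : Set ℂ := {z | z ∈ Z ∧ n < (T z).ncard ∧ s z ≠ T z} with hG
  -- local finiteness of the balls
  have hlf : LocallyFinite fun z : G => closedBall (z : ℂ) (r z) := by
    intro x
    refine ⟨ball x 1, ball_mem_nhds x one_pos, ?_⟩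
    have h1 := lf_compact hZ (isCompact_closedBall x 2)
    refine Set.Finite.of_finite_image (f := (Subtype.val : G → ℂ)) (h1.subset ?_)
      Subtype.val_injective.injOn
    rintro _ ⟨z, ⟨w, hw, hwx⟩, rfl⟩
    refine ⟨z.2.1, ?_⟩
    have h2 := dist_triangle_left (z : ℂ) x w
    have h3 := mem_ball.1 hwx
    have h4 := mem_closedBall.1 hw
    exact mem_closedBall.2 (by linarith [hr1 (z : ℂ)])
  have hcl : IsClosed (⋃ z : G, closedBall (z : ℂ) (r z)) :=
    hlf.isClosed_iUnion fun z => isClosed_closedBall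
  set T₁ : ℂ → Set ι := fun w => {i | (∃ z : G, w ∈ closedBall (z : ℂ) (r z) ∧ i ∈ K (s z) w) ∨
    (i ∈ T w ∧ w ∉ ⋃ z : G, ball (z : ℂ) (r z))} with hT₁
  have hc₁ : ∀ i, IsClosed {x | i ∈ T₁ x} := by
    intro i
    have h1 : {x | i ∈ T₁ x} = (⋃ z : G, closedBall (z : ℂ) (r z) ∩ {x | i ∈ K (s z) x}) ∪
        ({x | i ∈ T x} ∩ (⋃ z : G, ball (z : ℂ) (r z))ᶜ) := by
      ext x
      simp only [hT₁, mem_ofPred_eq, mem_union, mem_iUnion, mem_inter_iff, mem_compl_iff]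
    rw [h1]
    refine IsClosed.union ?_ ?_
    · exact (hlf.subset fun z => inter_subset_left).isClosed_iUnion fun z =>
        isClosed_closedBall.inter (hKc _ i)
    · exact (hc i).inter (isOpen_iUnion fun z => isOpen_ball).isClosed_compl
  have hn₁ : ∀ x, (T₁ x).Nonempty := by
    intro w
    by_cases hw : w ∈ ⋃ z : G, ball (z : ℂ) (r z)
    · obtain ⟨z, hz⟩ := mem_iUnion.1 hw
      obtain ⟨i, hi⟩ := (hK (s z) w (hrs z w (mem_ball.1 hz).le)).1
      exact ⟨i, Or.inl ⟨z, ball_subset_closedBall hz, hi⟩⟩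
    · obtain ⟨i, hi⟩ := hn w
      exact ⟨i, Or.inr ⟨hi, hw⟩⟩
  have hs₁ : ∀ x, T₁ x ⊆ P x := by
    rintro w i (⟨z, hz, hi⟩ | ⟨hi, -⟩)
    · exact (hK (s z) w (hrs z w hz)).2 hi
    · exact hs w hi
  have hGs : ∀ x, x ∈ G → T₁ x ⊆ s x := by
    rintro x hxG i (⟨z, hz, hi⟩ | ⟨-, hi⟩)
    · have h2 := hrZ z x hxG.1 (mem_closedBall.1 hz)
      rw [← h2] at hi
      exact hKs _ _ hi
    · exact absurd (mem_iUnion.2 ⟨(⟨x, hxG⟩ : G), mem_ball_self (hr0 x)⟩) hi
  have hGlt : ∀ x, x ∈ G → (s x).ncard < (T x).ncard := fun x hxG =>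
    Set.ncard_lt_ncard ((hs1 x).ssubset_of_ne hxG.2.2) (Set.toFinite _)
  have h3 : ∀ w, w ∉ ⋃ z : G, closedBall (z : ℂ) (r z) → T₁ w = T w := by
    intro w hw
    ext i
    constructor
    · rintro (⟨z, hz, -⟩ | ⟨hi, -⟩)
      · exact absurd (mem_iUnion.2 ⟨z, hz⟩) hw
      · exact hi
    · intro hi
      refine Or.inr ⟨hi, fun hcon => hw ?_⟩
      obtain ⟨z, hz⟩ := mem_iUnion.1 hcon
      exact mem_iUnion.2 ⟨z, ball_subset_closedBall hz⟩
  have hout : ∀ x ∈ Z, x ∉ G → x ∉ ⋃ z : G, closedBall (z : ℂ) (r z) := by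
    intro x hxZ hxG hcon
    obtain ⟨z, hz⟩ := mem_iUnion.1 hcon
    have h3 := hrZ z x hxZ (mem_closedBall.1 hz)
    exact hxG (h3 ▸ z.2)
  have hm₁ : ∀ x, n < (T₁ x).ncard → MinAt P (T₁ x) x := by
    intro x hx
    have hxZ : x ∈ Z := by
      by_contra hxZ
      have h1 := Set.ncard_le_ncard (hs₁ x) (Set.toFinite _)
      have h2 := hZn x hxZ
      omega
    by_cases hxG : x ∈ G
    · have h4 : T₁ x = s x := hs3 x _ (hGs x hxG) (suff_self hc₁ hn₁ hs₁ x)
      rw [h4]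
      exact hs3 x
    · have h2 := h3 x (hout x hxZ hxG)
      rw [h2] at hx ⊢
      have h1 : s x = T x := by
        by_contra hne
        exact hxG ⟨hxZ, hx, hne⟩
      rw [← h1]
      exact hs3 x
  obtain ⟨T', hc', hn', hs', hp⟩ := exists_pure T₁ hc₁ hn₁
  have hsP : ∀ x, T' x ⊆ P x := fun x => (hs' x).trans (hs₁ x)
  refine ⟨T', hc', hn', hsP, hp, fun x hx => ?_, fun x hxZ => ?_⟩
  · have h0 : n < (T₁ x).ncard := lt_of_lt_of_le hx (Set.ncard_le_ncard (hs' x) (Set.toFinite _))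
    have h1 := hm₁ x h0
    have h3 : T' x = T₁ x := h1 (T' x) (hs' x) (suff_self hc' hn' hsP x)
    rw [h3]
    exact h1
  · by_cases hxG : x ∈ G
    · right
      have h4 := (hs' x).trans (hGs x hxG)
      exact ⟨hxG.2.1, h4.trans (hs1 x), lt_of_le_of_lt (Set.ncard_le_ncard h4 (Set.toFinite _))
        (hGlt x hxG)⟩
    · left
      have h4 : ∀ᶠ w in 𝓝 x, T₁ w = T w := by
        filter_upwards [hcl.isOpen_compl.mem_nhds (hout x hxZ hxG)] with w hw
        exact h3 w hw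
      have h5 := eventually_eventually_nhds.2 h4
      filter_upwards [h5, h4] with w hw hw0
      refine Subset.antisymm (by rw [← hw0]; exact hs' w) fun i hi => ?_
      refine (hc' i).closure_subset (mem_closure_iff_frequently.2 ?_)
      refine ((hpu w i hi).and_eventually hw).mono ?_
      rintro y ⟨hy, hy1⟩
      obtain ⟨j, hj⟩ := hn' y
      have h6 := hs' y hj
      rw [hy1, hy] at h6
      have h7 : j = i := h6
      exact h7 ▸ hj

end Vale.Agent.P032.H355
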