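import Vale.Agent.P032W.H355.Seg
import Vale.Agent.P032W.H355.Marks
import Vale.Agent.P032X.H355.LMinE
import Vale.Agent.P032W.S5.H483.MinW

/-!
# P032: the frame of a map with Jordan arcs as edges

`exists_frame`: from the open sets of a map with Jordan arcs (`Base g pal V`) one gets a family `U`
(weakly maximal: fully maximal off `XX U`), a reduced family `R` and a closed cover `T` below it
such that all colours of `T x` are blocked at the points of `XX U`, and the points of `XX U` with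
three colours are locally finite.
-/

open Set Filter Topology Metric

noncomputable section

namespace Vale.Agent.P032.H355

open Vale.Agent.P032.Six

variable {ι : Type*}

section

variable {g : ι → ℝ → ℂ} {k : ℕ} {pal : ι → Set (Fin k)} {V U R : Fin k → Set ℂ}

theorem XX_eq (hsub : ∀ i, R i ⊆ U i) (hcov : ∀ w, w ∉ XX U → ∃ i, w ∈ R i) : XX R = XX U := by
  ext x
  constructor
  · intro hx
    by_contra hX
    obtain ⟨i, hi⟩ := hcov x hX
    exact hx i hi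
  · intro hx i hi
    exact hx i (hsub i hi)

theorem dense_of_XX (hU : Dense (⋃ i, U i)) (h : XX R = XX U) : Dense (⋃ i, R i) := by
  have h1 : (⋃ i, R i) = ⋃ i, U i := by
    ext x
    have h2 : x ∈ XX R ↔ x ∈ XX U := by rw [h]
    simp only [XX, mem_ofPred_eq] at h2
    simp only [mem_iUnion]
    constructor
    · intro h3
      by_contra h4
      push Not at h4
      obtain ⟨i, hi⟩ := h3
      exact h2.2 h4 i hi
    · intro h3
      by_contra h4
      push Not at h4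
      obtain ⟨i, hi⟩ := h3
      exact h2.1 h4 i hi
  rw [h1]; exact hU

/-- the reduced family -/
theorem GMax.exists_red (h : GMax g pal V U) (hb : Base g pal V) {K : ι → Set ℝ}
    (hs : Seg g U K) :
    ∃ R : Fin k → Set ℂ, (∀ i, IsOpen (R i)) ∧ (∀ i, R i ⊆ U i) ∧ (∀ w, w ∉ XX U → ∃ i, w ∈ R i) ∧
      (∀ x ∈ Dd g U K, ∀ i, x ∈ closure (R i) → i ∈ BB g pal U x) ∧
      ∀ z ∈ Dd g U K, ∀ w, w ∉ XX U → ∀ i ∈ BB g pal U z, w ∈ U i → w ∈ R i ∨
        ∃ x ∈ Dd g U K, dist x z ≤ 2 * dist w z ∧ i ∉ BB g pal U x ∧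
          ∃ j ∈ BB g pal U x, w ∈ R j :=
  exists_shrink h.isClosed_XX (hs.isClosed_Dd h) U h.isOpen (fun w hw => by
    have hw : ¬ ∀ i, w ∉ U i := hw
    push Not at hw
    exact hw) (BB g pal U) (fun _ hx => hs.usc h hb hx) (fun _ hx hX => hs.loc h hb hx hX)
    (fun _ hx => hs.suff h hb hx)

theorem GMax.mx (h : GMax g pal V U) (hb : Base g pal V) (hsub : ∀ i, R i ⊆ U i)
    (hcov : ∀ w, w ∉ XX U → ∃ i, w ∈ R i)
    (hR : ∀ x ∈ XX U, ∀ i, x ∈ closure (R i) → i ∈ BB g pal U x) : Mx U := by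
  have hd : Dense (⋃ i, U i) := hb.dense.mono (iUnion_mono h.sub)
  have hdR : Dense (⋃ i, R i) := dense_of_XX hd (XX_eq hsub hcov)
  have hRU : ∀ x, Pal R x ⊆ Pal U x := fun x i hi => closure_mono (hsub i) hi
  refine ⟨h.isOpen, hd, h.free', fun i x hx => ?_, Pal R, fun z => ⟨hRU z, ?_, ?_⟩⟩
  · by_cases hX : x ∈ XX U
    · obtain ⟨j, hj⟩ := cover_of_dense hdR x
      have hji : j = i := by simpa using hx (hRU x hj)
      subst hji
      obtain ⟨y, hy, hxy⟩ := ((hR x hX j hj).1 hX).1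
      have h1 : x ∈ interior (closure (U j)) := by
        rw [mem_interior_iff_mem_nhds]
        filter_upwards [pal_nhd U x] with z hz
        obtain ⟨l, hl⟩ := cover_of_dense hd z
        have : l = j := by simpa using hx (hz hl)
        exact this ▸ hl
      exact absurd hxy (free_int_closure (h.free' j) x h1 y hy)
    · have hX : ¬ ∀ i, x ∉ U i := hX
      push Not at hX
      obtain ⟨j, hj⟩ := hX
      have hji : j = i := by simpa using hx (show j ∈ Pal U x from subset_closure hj)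
      exact hji ▸ hj
  · filter_upwards [pal_nhd R z] with w hw
    obtain ⟨j, hj⟩ := cover_of_dense hdR w
    exact ⟨j, hw hj, hRU w hj⟩
  · intro hz i hi
    obtain ⟨y, hy, hzy⟩ := ((hR z hz i hi).1 hz).1
    exact ⟨y, hzy, hy⟩

/-- the palettes of the subfamily `s`, with the reduced family -/
def Kr (R : Fin k → Set ℂ) (s : Set (Fin k)) (x : ℂ) : Set (Fin k) :=
  {i | i ∈ s ∧ i ∈ Pal R x ∧ ∀ j ∈ s, ff R j x ≤ ff R i x}

theorem Kr_closed (R : Fin k → Set ℂ) (s : Set (Fin k)) (i : Fin k) :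
    IsClosed {x | i ∈ Kr R s x} := by
  classical
  by_cases hi : i ∈ s
  · have h1 : {x | i ∈ Kr R s x} = closure (R i) ∩ ⋂ j : {j // j ∈ s}, {x | ff R j x ≤ ff R i x} := by
      ext x
      simp [Kr, Pal, hi]
    rw [h1]
    exact isClosed_closure.inter (isClosed_iInter fun j =>
      isClosed_le (continuous_ff _) (continuous_ff i))
  · have h1 : {x | i ∈ Kr R s x} = ∅ := by
      ext x
      simp [Kr, hi]
    rw [h1]
    exact isClosed_empty

theorem ffR_pos (hR : ∀ i, IsOpen (R i)) (hfree : ∀ i, ∀ x ∈ R i, ∀ y ∈ R i, dist x y ≠ 1)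
    {i : Fin k} {x : ℂ} (hx : x ∈ R i) : 0 < ff R i x := by
  have hne : (R i)ᶜ.Nonempty := by
    refine ⟨x + 1, fun h1 => ?_⟩
    have h2 := hfree i x hx (x + 1) h1
    exact h2 (by rw [dist_eq_norm]; simp)
  exact ((hR i).isClosed_compl.notMem_iff_infDist_pos hne).1 (by simpa using hx)

theorem Kr_good (hR : ∀ i, IsOpen (R i)) (hfree : ∀ i, ∀ x ∈ R i, ∀ y ∈ R i, dist x y ≠ 1)
    (s : Set (Fin k)) (x : ℂ) (hx : ∃ i ∈ s, i ∈ {i | i ∈ Pal R x ∧ (x ∉ XX R → x ∈ R i)}) :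
    (Kr R s x).Nonempty ∧ Kr R s x ⊆ {i | i ∈ Pal R x ∧ (x ∉ XX R → x ∈ R i)} := by
  classical
  obtain ⟨i, his, hiP, hiU⟩ := hx
  by_cases hX : x ∈ XX R
  · refine ⟨⟨i, his, hiP, fun j _ => ?_⟩, fun j hj => ⟨hj.2.1, fun hcon => absurd hX hcon⟩⟩
    rw [ff_zero (hX j)]
    exact ff_nonneg i x
  · have hiU := hiU hX
    obtain ⟨m, hm, hmax⟩ := Set.exists_max_image s (fun j => ff R j x) (Set.toFinite _) ⟨i, his⟩
    have h1 : 0 < ff R m x := lt_of_lt_of_le (ffR_pos hR hfree hiU) (hmax i his)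
    have hmem : ∀ j, 0 < ff R j x → x ∈ R j := by
      intro j hj
      by_contra hcon
      rw [ff_zero hcon] at hj
      exact lt_irrefl _ hj
    refine ⟨⟨m, hm, subset_closure (hmem m h1), fun j hj => hmax j hj⟩, fun j hj => ?_⟩
    have h2 : 0 < ff R j x := lt_of_lt_of_le h1 (hj.2.2 m hm)
    exact ⟨hj.2.1, fun _ => hmem j h2⟩

end

/-- a locally finite set is totally disconnected -/
theorem td_of_lf {S : Set ℂ} (hS : ∀ x, ∃ t ∈ 𝓝 x, (S ∩ t).Finite) : IsTotallyDisconnected S := by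
  intro C hCS hC x hx y hy
  by_contra hne
  obtain ⟨t, ht, hfin⟩ := hS x
  obtain ⟨o, hot, ho, hxo⟩ := _root_.mem_nhds_iff.1 ht
  have hfin2 : ((S ∩ t) \ {x}).Finite := hfin.subset sdiff_subset
  obtain ⟨z, hzC, ⟨hzo, hzf⟩, hzx⟩ := hC (o ∩ ((S ∩ t) \ {x})ᶜ) {x}ᶜ
    (ho.inter hfin2.isClosed.isOpen_compl) isOpen_compl_singleton (by
      intro z hz
      by_cases hzx : z = x
      · left
        rw [hzx]
        exact ⟨hxo, fun hcon => hcon.2 rfl⟩
      · exact Or.inr hzx)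
    ⟨x, hx, hxo, fun hcon => hcon.2 rfl⟩ ⟨y, hy, fun hcon => hne (by rw [mem_singleton_iff] at hcon; exact hcon.symm)⟩
  exact hzf ⟨⟨hCS hzC, hot hzo⟩, hzx⟩

/-- minimality at a point of both types -/
theorem mnAt_inner {g : ι → ℝ → ℂ} {k : ℕ} {pal : ι → Set (Fin k)} {U R : Fin k → Set ℂ}
    {T : ℂ → Set (Fin k)} {K : ι → Set ℝ} (hd : Dense (⋃ i, U i))
    (hTP : ∀ x, T x ⊆ {i | i ∈ Pal R x ∧ (x ∉ XX U → x ∈ R i)})
    (hTB : ∀ x ∈ Dd g U K, T x ⊆ BB g pal U x)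
    (hR5 : ∀ z ∈ Dd g U K, ∀ w, w ∉ XX U → ∀ i ∈ BB g pal U z, w ∈ U i → w ∈ R i ∨
        ∃ x ∈ Dd g U K, dist x z ≤ 2 * dist w z ∧ i ∉ BB g pal U x ∧
          ∃ j ∈ BB g pal U x, w ∈ R j) {z : ℂ} (hzX : z ∈ XX U)
    (hmin : ∀ s, s ⊆ T z → (∀ᶠ w in 𝓝 z, ∃ i ∈ s, i ∈ Pal R w ∧ (w ∉ XX U → w ∈ R i)) → s = T z)
    (hiso : ∀ᶠ y in 𝓝 z, y ∈ Dd g U K → y = z) : MnAt U T z where
  mn := by
    intro s hsz hne
    have hf : ∃ᶠ w in 𝓝 z, ¬ ∃ i ∈ s, i ∈ Pal R w ∧ (w ∉ XX U → w ∈ R i) :=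
      Filter.not_eventually.1 fun h1 => hne (hmin s hsz h1)
    rcases s.eq_empty_or_nonempty with rfl | ⟨i0, hi0⟩
    · have h1 : ∃ᶠ w in 𝓝 z, w ∈ ⋃ i, U i := mem_closure_iff_frequently.1 (hd z)
      refine h1.mono fun w hw => Or.inl ⟨fun hX => ?_, fun i hi => absurd hi (notMem_empty i)⟩
      obtain ⟨i, hi⟩ := mem_iUnion.1 hw
      exact hX i hi
    · obtain ⟨ρ, hρ, hball⟩ := Metric.eventually_nhds_iff.1 hiso
      have hzD : z ∈ Dd g U K := Or.inl hzX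
      refine (hf.and_eventually (ball_mem_nhds z (half_pos hρ))).mono ?_
      rintro w ⟨hw, hwρ⟩
      push Not at hw
      have hwρ : dist w z < ρ / 2 := hwρ
      have hwz : w ≠ z := by
        rintro rfl
        obtain ⟨h1, h2⟩ := hw i0 hi0 (hTP w (hsz hi0)).1
        exact h1 hzX
      have hwX : w ∉ XX U := fun hX => hwz (hball (by linarith) (Or.inl hX))
      refine Or.inl ⟨hwX, fun i hi hwi => ?_⟩
      have hwR : w ∉ R i := fun hwR => (hw i hi (subset_closure hwR)).2 hwR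
      rcases hR5 z hzD w hwX i (hTB z hzD (hsz hi)) hwi with h1 | ⟨x, hxD, hxz, hix, -⟩
      · exact hwR h1
      · have : x = z := hball (by linarith) hxD
        subst this
        exact hix (hTB x hxD (hsz hi))
  germ := by
    intro ε _
    filter_upwards [hiso] with x hx hxz hxX
    exact absurd (hx (Or.inl hxX)) hxz

/-- minimality at an end point -/
theorem GMax.mnAt_end {g : ι → ℝ → ℂ} {k : ℕ} {pal : ι → Set (Fin k)} {V U R : Fin k → Set ℂ}
    {T : ℂ → Set (Fin k)} {K : ι → Set ℝ} (h : GMax g pal V U) (hb : Base g pal V)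
    (hs : Seg g U K) (hd : Dense (⋃ i, U i)) (htwo : ∀ x ∈ XX U, 2 ≤ (T x).ncard)
    (hTP : ∀ x, T x ⊆ {i | i ∈ Pal R x ∧ (x ∉ XX U → x ∈ R i)})
    (hTB : ∀ x ∈ Dd g U K, T x ⊆ BB g pal U x)
    (hR5 : ∀ z ∈ Dd g U K, ∀ w, w ∉ XX U → ∀ i ∈ BB g pal U z, w ∈ U i → w ∈ R i ∨
        ∃ x ∈ Dd g U K, dist x z ≤ 2 * dist w z ∧ i ∉ BB g pal U x ∧
          ∃ j ∈ BB g pal U x, w ∈ R j) {z : ℂ} (hzX : z ∈ XX U)
    (hmin : ∀ s, s ⊆ T z → (∀ᶠ w in 𝓝 z, ∃ i ∈ s, i ∈ Pal R w ∧ (w ∉ XX U → w ∈ R i)) → s = T z)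
    (hz : ∀ e, ∀ u ∈ Ioo (0 : ℝ) 1, g e u ≠ z) : MnAt U T z := by
  have hzD : z ∈ Dd g U K := Or.inl hzX
  -- regular pieces
  have hreg : ∀ e, ∀ u ∈ K e, u ∈ Ioo (0 : ℝ) 1 → BB g pal U (g e u) = pal e :=
    fun e u hu hu' => hs.BB_seg h hb hu hu'
  have hKT : ∀ e, ∀ u ∈ K e, u ∈ Ioo (0 : ℝ) 1 → T (g e u) ⊆ pal e := fun e u hu hu' =>
    (hTB _ (Or.inr (mem_iUnion.2 ⟨e, u, hu, rfl⟩))).trans (hreg e u hu hu').subset
  have hKT' : ∀ e, ∀ u ∈ revK K e, u ∈ Ioo (0 : ℝ) 1 → T (H355.rev g e u) ⊆ pal e :=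
    fun e u hu hu' => hKT e (1 - u) hu (one_sub_Ioo hu')
  -- near `z` the points of the closed set have the palette of an arc, which occurs frequently
  have hpic : ∀ ε > 0, ∀ᶠ x in 𝓝 z, x ≠ z → x ∈ Dd g U K → ∃ e, BB g pal U x = pal e ∧
      (Lft g U K ε e z x ∨ Lft (H355.rev g) U (revK K) ε e z x) := by
    intro ε hε
    filter_upwards [hs.end_pic h hb hz hε] with x hx hxz hxD
    obtain ⟨e, h1⟩ := hx hxz hxD
    refine ⟨e, ?_, h1⟩
    rcases h1 with ⟨-, -, u, hu, rfl, hK⟩ | ⟨-, -, u, hu, rfl, hK⟩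
    · exact hreg e u (hK u ⟨hu.1, le_rfl⟩).1 hu
    · exact hreg e (1 - u) (hK u ⟨hu.1, le_rfl⟩).1 (one_sub_Ioo hu)
  have hpal : ∀ x ∈ XX U, ∀ e, T x ⊆ pal e → T x = pal e := fun x hx e hxe =>
    Set.eq_of_subset_of_ncard_le hxe ((hb.pal_two e).trans (htwo x hx)) (Set.toFinite _)
  have hfreq : ∀ e x ε, (Lft g U K ε e z x ∨ Lft (H355.rev g) U (revK K) ε e z x) →
      ∃ᶠ w in 𝓝 z, w ∈ XX U ∧ w ≠ z ∧ T w = pal e := by
    rintro e x ε (h1 | h1)
    · refine (h1.freq h.arcs).mono ?_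
      rintro w ⟨hwX, t, ht, ht', rfl⟩
      exact ⟨hwX, hz e t ht', hpal _ hwX e (hKT e t ht ht')⟩
    · refine (h1.freq h.arcs.rev).mono ?_
      rintro w ⟨hwX, t, ht, ht', rfl⟩
      exact ⟨hwX, hz e (1 - t) (one_sub_Ioo ht'), hpal _ hwX e (hKT' e t ht ht')⟩
  refine ⟨fun s hsz hne => ?_, fun ε hε => ?_⟩
  · have hf : ∃ᶠ w in 𝓝 z, ¬ ∃ i ∈ s, i ∈ Pal R w ∧ (w ∉ XX U → w ∈ R i) :=
      Filter.not_eventually.1 fun h1 => hne (hmin s hsz h1)
    rcases s.eq_empty_or_nonempty with rfl | ⟨i0, hi0⟩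
    · have h1 : ∃ᶠ w in 𝓝 z, w ∈ ⋃ i, U i := mem_closure_iff_frequently.1 (hd z)
      refine h1.mono fun w hw => Or.inl ⟨fun hX => ?_, fun i hi => absurd hi (notMem_empty i)⟩
      obtain ⟨i, hi⟩ := mem_iUnion.1 hw
      exact hX i hi
    by_contra hcon
    obtain ⟨ρ, hρ, hball⟩ := Metric.eventually_nhds_iff.1 ((hpic 1 one_pos).and
      (Filter.not_frequently.1 hcon))
    obtain ⟨w, hw, hwρ⟩ := (hf.and_eventually (ball_mem_nhds z (half_pos hρ))).exists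
    push Not at hw
    have hwρ : dist w z < ρ / 2 := hwρ
    have hwz : w ≠ z := by
      rintro rfl
      exact (hw i0 hi0 (hTP w (hsz hi0)).1).1 hzX
    have hno := (hball (y := w) (by linarith)).2
    rw [not_or] at hno
    by_cases hwX : w ∈ XX U
    · obtain ⟨e, he, -⟩ := (hball (y := w) (by linarith)).1 hwz (Or.inl hwX)
      have h1 := hpal w hwX e ((hTB w (Or.inl hwX)).trans he.subset)
      refine hno.2 ⟨hwX, hwz, le_antisymm ?_ (htwo w hwX), fun h2 => ?_⟩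
      · rw [h1]; exact hb.pal_two e
      · have h3 : (T w).Nonempty := by
          refine Set.nonempty_of_ncard_ne_zero ?_
          have := htwo w hwX
          omega
        obtain ⟨j, hj⟩ := h3
        exact (hw j (h2 hj) (hTP w hj).1).1 hwX
    · have h1 : ∃ i ∈ s, w ∈ U i := by
        by_contra h2
        push Not at h2
        exact hno.1 ⟨hwX, h2⟩
      obtain ⟨i, hi, hwi⟩ := h1
      have hwR : ∀ i ∈ s, w ∉ R i := fun i hi hwR => (hw i hi (subset_closure hwR)).2 hwR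
      rcases hR5 z hzD w hwX i (hTB z hzD (hsz hi)) hwi with h1 | ⟨x, hxD, hxz, hix, j, hj, hwj⟩
      · exact hwR i hi h1
      · have hxz' : x ≠ z := by
          rintro rfl
          exact hix (hTB x hxD (hsz hi))
        obtain ⟨e, he, hl⟩ := (hball (y := x) (by linarith)).1 hxz' hxD
        obtain ⟨w', ⟨hw'X, hw'z, hTw'⟩, hw'ρ⟩ :=
          ((hfreq e x 1 hl).and_eventually (ball_mem_nhds z hρ)).exists
        refine (hball (y := w') hw'ρ).2 (Or.inr ⟨hw'X, hw'z, le_antisymm ?_ (htwo w' hw'X),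
          fun h2 => ?_⟩)
        · rw [hTw']; exact hb.pal_two e
        · rw [hTw', ← he] at h2
          exact hwR j (h2 hj) hwj
  · filter_upwards [hpic (min ε (1 / 4)) (lt_min hε (by norm_num))] with x hx hxz hxX _
    obtain ⟨e, he, hl⟩ := hx hxz (Or.inl hxX)
    have h1 := hpal x hxX e ((hTB x (Or.inl hxX)).trans he.subset)
    have key : ∃ Q : Set ℂ, IsPreconnected Q ∧ Q ⊆ ball z (min ε (1 / 4)) ∧
        (∀ w ∈ Q, T w ⊆ T x) ∧ ∀ i, ∃ w ∈ Q, ∃ y ∈ closure (U i), dist w y = 1 := by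
      rcases hl with hl | hl
      · exact hl.germ h hKT (min_le_right _ _) h1.ge
      · exact hl.germ h.rev hKT' (min_le_right _ _) h1.ge
    obtain ⟨Q, a, b, c, d⟩ := key
    refine ⟨Q, a, b.trans (ball_subset_ball (min_le_left _ _)), c, fun i => ?_⟩
    obtain ⟨w, hw, y, hy, hwy⟩ := d i
    exact ⟨w, hw, fun hf => hf y hy hwy⟩

/-- the palettes of a reduced family -/
def PR {k : ℕ} (U R : Fin k → Set ℂ) (x : ℂ) : Set (Fin k) := {i | i ∈ Pal R x ∧ (x ∉ XX U → x ∈ R i)}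

/-- a cover below a reduced family is a frame -/
theorem GMax.irr_of {g : ι → ℝ → ℂ} {k : ℕ} {pal : ι → Set (Fin k)} {V U R : Fin k → Set ℂ}
    {K : ι → Set ℝ} (h : GMax g pal V U) (hmx : Mx U) (hRU : ∀ i, R i ⊆ U i)
    (hRB : ∀ x ∈ Dd g U K, ∀ i, x ∈ closure (R i) → i ∈ BB g pal U x) {T : ℂ → Set (Fin k)}
    (hc : ∀ i, IsClosed {x | i ∈ T x}) (hn : ∀ x, (T x).Nonempty) (hTP : ∀ x, T x ⊆ PR U R x)
    (hp : ∀ x, ∀ i ∈ T x, ∃ᶠ w in 𝓝 x, T w = {i}) : Irr U T := by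
  refine ⟨hmx, fun i x hx hf => ?_, hc, hn, fun x i hi => closure_mono (hRU i) (hTP x hi).1,
    fun x hX i hi => hRU i ((hTP x hi).2 hX), hp⟩
  by_cases hX : x ∈ XX U
  · have hi := hx.resolve_left (fun h1 => h1 hX)
    obtain ⟨y, hy, hxy⟩ := ((hRB x (Or.inl hX) i (hTP x hi).1).1 hX).1
    exact absurd hxy (hf y hy)
  · exact h.max_off hX hf

/-- the points with three colours are locally finite -/
theorem GMax.lf_of {g : ι → ℝ → ℂ} {k : ℕ} {pal : ι → Set (Fin k)} {V U : Fin k → Set ℂ}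
    (h : GMax g pal V U) (hb : Base g pal V) {T : ℂ → Set (Fin k)}
    (hTB : ∀ x ∈ XX U, T x ⊆ BB g pal U x) (x : ℂ) :
    ∃ t ∈ 𝓝 x, ({y | y ∈ XX U ∧ 3 ≤ (T y).ncard} ∩ t).Finite := by
  obtain ⟨t, ht, hfin⟩ := h.lf hb x
  refine ⟨t, ht, hfin.subset ?_⟩
  rintro y ⟨⟨hyX, hy3⟩, hyt⟩
  refine ⟨⟨hyX, ?_⟩, hyt⟩
  rintro ⟨e, hr⟩
  have h1 := hTB y hyX
  rw [h.BB_reg hb hr] at h1
  have h2 := Set.ncard_le_ncard h1 (Set.toFinite _)
  have h3 := hb.pal_two e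
  omega

theorem Kr_good' {k : ℕ} {U R : Fin k → Set ℂ} (hR : ∀ i, IsOpen (R i))
    (hfree : ∀ i, ∀ x ∈ R i, ∀ y ∈ R i, dist x y ≠ 1) (hXX : XX R = XX U) (s : Set (Fin k)) (x : ℂ)
    (hx : ∃ i ∈ s, i ∈ PR U R x) : (Kr R s x).Nonempty ∧ Kr R s x ⊆ PR U R x := by
  have h1 := Kr_good hR hfree s x (by rw [hXX]; exact hx)
  rw [hXX] at h1
  exact h1

theorem PR_ne {k : ℕ} {U R : Fin k → Set ℂ} (hd : Dense (⋃ i, R i)) (hcov : ∀ w, w ∉ XX U → ∃ i, w ∈ R i)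
    (x : ℂ) : ∃ i ∈ (univ : Set (Fin k)), i ∈ PR U R x := by
  by_cases hX : x ∈ XX U
  · obtain ⟨i, hi⟩ := cover_of_dense hd x
    exact ⟨i, mem_univ _, hi, fun hcon => absurd hX hcon⟩
  · obtain ⟨i, hi⟩ := hcov x hX
    exact ⟨i, mem_univ _, subset_closure hi, fun _ => hi⟩

/-- the points with given coordinates in the frames of the pairs of points of `Z` at distance one -/
def Nmd (Z C : Set ℂ) : Set ℂ := {y | ∃ z ∈ Z, ∃ v ∈ Z, dist v z = 1 ∧ ∃ c ∈ C, y = z + (v - z) * c}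

theorem lf_nmd {Z C : Set ℂ} (hZ : ∀ x, ∃ t ∈ 𝓝 x, (Z ∩ t).Finite) (hC : C.Finite) (x : ℂ) :
    ∃ t ∈ 𝓝 x, ((Z ∪ Nmd Z C) ∩ t).Finite := by
  obtain ⟨B, hB⟩ := (hC.image fun c : ℂ => ‖c‖).bddAbove
  have hB' : ∀ c ∈ C, ‖c‖ ≤ B := fun c hc => hB (mem_image_of_mem _ hc)
  have hK := lf_compact hZ (isCompact_closedBall x (|B| + 2))
  obtain ⟨t, ht, hfin⟩ := hZ x
  refine ⟨t ∩ ball x 1, inter_mem ht (ball_mem_nhds x one_pos), ?_⟩
  have h1 : ((Z ∪ Nmd Z C) ∩ (t ∩ ball x 1)) ⊆ (Z ∩ t) ∪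
      (fun p : ℂ × ℂ × ℂ => p.1 + (p.2.1 - p.1) * p.2.2) ''
        ((Z ∩ closedBall x (|B| + 2)) ×ˢ (Z ∩ closedBall x (|B| + 2)) ×ˢ C) := by
    rintro y ⟨hy | ⟨z, hz, v, hv, hvz, c, hc, rfl⟩, hyt, hyx⟩
    · exact Or.inl ⟨hy, hyt⟩
    · right
      have h2 : dist z (z + (v - z) * c) ≤ |B| := by
        rw [dist_eq_norm]
        have e : z - (z + (v - z) * c) = -((v - z) * c) := by ring
        rw [e, norm_neg, norm_mul, ← dist_eq_norm, hvz, one_mul]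
        exact (hB' c hc).trans (le_abs_self B)
      have h3 := dist_triangle z (z + (v - z) * c) x
      have h4 := dist_triangle v z x
      have h5 := mem_ball.1 hyx
      exact ⟨(z, v, c), ⟨⟨hz, mem_closedBall.2 (by linarith)⟩,
        ⟨hv, mem_closedBall.2 (by linarith)⟩, hc⟩, rfl⟩
  exact (hfin.union ((hK.prod (hK.prod hC)).image _)).subset h1

/-- **The frame of a map.**  `T` has the minimality at the points with at least four colours; `T'`
is connected near every point (`Cnn`); near a point with at least four colours in `T` both are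
equal, unless `T'` has more colours there; `T ⊆ T'` on `XX U`; `T` and `T'` differ only at a locally
finite set of points of `XX U`; also at the points with coordinates `c ∈ C` in the frame of a pair
of points at distance one with at least four colours both are equal near the point, or `T'` has
at least four colours there and `T` less. -/
theorem exists_frame {g : ι → ℝ → ℂ} {pal : ι → Set (Fin 6)} {V : Fin 6 → Set ℂ}
    (hb : Base g pal V) {C : Set ℂ} (hC : C.Finite) :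
    ∃ U T T', (Irr U T ∧ MnG U T ∧ (∀ i, V i ⊆ U i) ∧
      (∀ x, ∃ t ∈ 𝓝 x, ({y | y ∈ XX U ∧ 3 ≤ (T y).ncard} ∩ t).Finite) ∧
      ∀ x, ∀ i ∈ T x, Cn U x i) ∧ (Irr U T' ∧
      (∀ x, ∃ t ∈ 𝓝 x, ({y | y ∈ XX U ∧ 3 ≤ (T' y).ncard} ∩ t).Finite) ∧
      ∀ x, ∀ᶠ w in 𝓝 x, ∀ i ∈ T' w, Cnn U x w i) ∧
      (∀ z, 4 ≤ (T z).ncard → (∀ᶠ w in 𝓝 z, T w = T' w) ∨ (T z).ncard < (T' z).ncard) ∧
      (∀ x ∈ XX U, T x ⊆ T' x) ∧
      (∀ z v, 4 ≤ (T z).ncard → 4 ≤ (T v).ncard → dist v z = 1 → ∀ c ∈ C,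
        (∀ᶠ w in 𝓝 (z + (v - z) * c), T w = T' w) ∨
        (4 ≤ (T' (z + (v - z) * c)).ncard ∧
          (T (z + (v - z) * c)).ncard < (T' (z + (v - z) * c)).ncard)) ∧
      ∀ x, ∃ t ∈ 𝓝 x, ({y | y ∈ XX U ∧ T y ≠ T' y} ∩ t).Finite := by
  classical
  obtain ⟨U, h⟩ := hb.exists_gmax
  obtain ⟨K, hs⟩ := exists_seg g U
  choose S hS using exists_mks g U
  obtain ⟨R₁, hR₁o, hR₁U, hR₁c, hR₁B, hR₁5⟩ := h.exists_red hb hs
  obtain ⟨R₀, hR₀o, hR₀S, hR₀c, hR₀B⟩ := h.exists_red_o hb hs hS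
  have hR₀U : ∀ i, R₀ i ⊆ U i := fun i => (hR₀S i).trans (Uo_sub i)
  set R : Fin 6 → Set ℂ := fun i => R₁ i ∪ R₀ i with hR
  have hRo : ∀ i, IsOpen (R i) := fun i => (hR₁o i).union (hR₀o i)
  have hRU : ∀ i, R i ⊆ U i := fun i => union_subset (hR₁U i) (hR₀U i)
  have hRc : ∀ w, w ∉ XX U → ∃ i, w ∈ R i := fun w hw => by
    obtain ⟨i, hi⟩ := hR₀c w hw
    exact ⟨i, Or.inr hi⟩
  have hRB : ∀ x ∈ Dd g U K, ∀ i, x ∈ closure (R i) → i ∈ BB g pal U x := by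
    intro x hx i hi
    rw [hR, closure_union] at hi
    rcases hi with hi | hi
    · exact hR₁B x hx i hi
    · exact hR₀B x hx i hi
  have hR5 : ∀ z ∈ Dd g U K, ∀ w, w ∉ XX U → ∀ i ∈ BB g pal U z, w ∈ U i → w ∈ R i ∨
      ∃ x ∈ Dd g U K, dist x z ≤ 2 * dist w z ∧ i ∉ BB g pal U x ∧
        ∃ j ∈ BB g pal U x, w ∈ R j := by
    intro z hz w hw i hi hwi
    rcases hR₁5 z hz w hw i hi hwi with h1 | ⟨x, hx, h1, h2, j, hj, hwj⟩
    · exact Or.inl (Or.inl h1)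
    · exact Or.inr ⟨x, hx, h1, h2, j, hj, Or.inl hwj⟩
  have hmx : Mx U := h.mx hb hRU hRc fun x hx => hRB x (Or.inl hx)
  have hXX : XX R = XX U := XX_eq hRU hRc
  have hXX₀ : XX R₀ = XX U := XX_eq hR₀U hR₀c
  have hdR : Dense (⋃ i, R i) := dense_of_XX hmx.dense hXX
  have hdR₀ : Dense (⋃ i, R₀ i) := dense_of_XX hmx.dense hXX₀
  have hfree : ∀ i, ∀ x ∈ R i, ∀ y ∈ R i, dist x y ≠ 1 := fun i x hx y hy =>
    h.free i x (hRU i hx) y (hRU i hy)
  have hfree₀ : ∀ i, ∀ x ∈ R₀ i, ∀ y ∈ R₀ i, dist x y ≠ 1 := fun i x hx y hy =>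
    h.free i x (hR₀U i hx) y (hR₀U i hy)
  have hP₀ : ∀ x, PR U R₀ x ⊆ PR U R x := fun x i hi =>
    ⟨closure_mono subset_union_right hi.1, fun hX => Or.inr (hi.2 hX)⟩
  have hT₀ : ∀ x, (Kr R₀ univ x).Nonempty ∧ Kr R₀ univ x ⊆ PR U R₀ x := fun x =>
    Kr_good' hR₀o hfree₀ hXX₀ univ x (PR_ne hdR₀ hR₀c x)
  obtain ⟨T', hc', hn', hs', hp'⟩ := S5.H410.exists_pure (Kr R₀ univ) (Kr_closed R₀ univ)
    (fun x => (hT₀ x).1)
  have hTP' : ∀ x, T' x ⊆ PR U R₀ x := fun x => (hs' x).trans (hT₀ x).2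
  have irr' : Irr U T' := h.irr_of hmx hR₀U hR₀B hc' hn' hTP' hp'
  have hTB' : ∀ x ∈ Dd g U K, T' x ⊆ BB g pal U x := fun x hx i hi =>
    hR₀B x hx i (hTP' x hi).1
  have hZn : ∀ x, x ∉ Sp g U → (PR U R x).ncard ≤ 3 := by
    intro x hx
    by_cases hX : x ∈ XX U
    · have hr : ∃ e, Reg g U e x := by
        by_contra hcon
        exact hx ⟨hX, hcon⟩
      obtain ⟨e, hr⟩ := hr
      have h1 : PR U R x ⊆ pal e := fun i hi => by
        have := hRB x (Or.inl hX) i hi.1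
        rwa [h.BB_reg hb hr] at this
      have h2 := Set.ncard_le_ncard h1 (Set.toFinite _)
      have h3 := hb.pal_two e
      omega
    · exact (Set.ncard_le_ncard (t := {i | x ∈ U i}) (fun i hi => hRU i (hi.2 hX))
        (Set.toFinite _)).trans (hmx.K0_three x)
  obtain ⟨T, hc, hn, hTP, hp, hmin, hnear⟩ := exists_min_nearE (P := PR U R) (K := Kr R)
    (fun s x i hi => hi.1) (fun s i => Kr_closed R s i)
    (fun s x hx => Kr_good' hRo hfree hXX s x hx)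
    (fun x => lf_nmd (fun x => h.lf hb x) hC x) (n := 3)
    (fun x hx => hZn x fun hx' => hx (Or.inl hx')) hc' hn' (fun x => (hTP' x).trans (hP₀ x)) hp'
  have irr : Irr U T := h.irr_of hmx hRU hRB hc hn hTP hp
  have hTB : ∀ x ∈ Dd g U K, T x ⊆ BB g pal U x := fun x hx i hi => hRB x hx i (hTP x hi).1
  have htwo : ∀ x ∈ XX U, 2 ≤ (T x).ncard := by
    intro x hx
    obtain ⟨i, hi⟩ := hn x
    obtain ⟨j, hj, hji⟩ := irr.two hx i
    have h1 := Set.ncard_le_ncard (show ({j, i} : Set (Fin 6)) ⊆ T x by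
      rintro m (rfl | rfl) <;> assumption) (Set.toFinite _)
    rwa [Set.ncard_pair hji] at h1
  have htwo' : ∀ x ∈ XX U, 2 ≤ (T' x).ncard := by
    intro x hx
    obtain ⟨i, hi⟩ := hn' x
    obtain ⟨j, hj, hji⟩ := irr'.two hx i
    have h1 := Set.ncard_le_ncard (show ({j, i} : Set (Fin 6)) ⊆ T' x by
      rintro m (rfl | rfl) <;> assumption) (Set.toFinite _)
    rwa [Set.ncard_pair hji] at h1
  have hSp : ∀ x, 4 ≤ (T x).ncard → x ∈ Sp g U := by
    intro x hx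
    by_contra hcon
    have h1 := hZn x hcon
    have h2 := Set.ncard_le_ncard (hTP x) (Set.toFinite _)
    omega
  have hreg : ∀ y ∈ XX U, y ∉ Sp g U → T y = T' y := by
    intro y hyX hy
    have hr : ∃ e, Reg g U e y := by
      by_contra hcon
      exact hy ⟨hyX, hcon⟩
    obtain ⟨e, hr⟩ := hr
    have h1 := hTB y (Or.inl hyX)
    have h2 := hTB' y (Or.inl hyX)
    rw [h.BB_reg hb hr] at h1 h2
    have h3 := hb.pal_two e
    have h4 := htwo y hyX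
    have h5 := htwo' y hyX
    exact (Set.eq_of_subset_of_ncard_le h1 (by omega) (Set.toFinite _)).trans
      (Set.eq_of_subset_of_ncard_le h2 (by omega) (Set.toFinite _)).symm
  refine ⟨U, T, T', ⟨irr, fun z hz => ?_, h.sub, h.lf_of hb fun x hx => hTB x (Or.inl hx),
    fun x i hi => ?_⟩, ⟨irr', h.lf_of hb fun x hx => hTB' x (Or.inl hx), fun x => ?_⟩,
    fun z hz => ?_, fun x hxX => ?_, fun z v hz hv hvz c hc => ?_, fun x => ?_⟩
  · have hzX : z ∈ XX U := by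
      by_contra hX
      have h0 : T z ⊆ {i | z ∈ U i} := fun i hi => irr.off z hX i hi
      have h1 := Set.ncard_le_ncard h0 (Set.toFinite _)
      have h2 := hmx.K0_three z
      omega
    have hmz := hmin z (by omega)
    by_cases hin : ∃ e, ∃ u ∈ Ioo (0 : ℝ) 1, g e u = z
    · obtain ⟨e, u, hu, rfl⟩ := hin
      have hboth : LT g U e u ∧ RT g U e u := by
        by_contra hcon
        have h1 := Set.ncard_le_ncard (hTB _ (Or.inl hzX)) (Set.toFinite _)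
        rw [h.BB_inner hb hu] at h1
        have h2 := GMax.cc_ncard (U := U) hb e u hcon
        omega
      refine mnAt_inner hmx.dense hTP hTB hR5 hzX (fun s hs' => hmz s hs') ?_
      filter_upwards [hs.near h hb hu (Or.inl hzX)] with y hy hyD
      obtain ⟨t, ht, rfl, h1⟩ := hy hyD
      rcases h1 with rfl | ⟨hL, hR⟩
      · rfl
      · rcases le_total t u with h2 | h2
        · exact absurd (hboth.1.mono h2) hL
        · exact absurd (hboth.2.mono h2) hR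
    · push Not at hin
      exact h.mnAt_end hb hs hmx.dense htwo hTP hTB hR5 hzX (fun s hs' => hmz s hs') hin
  · by_cases hX : x ∈ XX U
    · exact ((hTB x (Or.inl hX) hi).1 hX).2
    · exact Cn.of_mem (irr.off x hX i hi)
  · filter_upwards [h.ctn hb hS x] with w hw i hi
    exact hw i (closure_mono (hR₀S i) (hTP' w hi).1)
  · rcases hnear z (Or.inl (hSp z hz)) with h1 | h1
    · exact Or.inl h1
    · exact Or.inr h1.2.2
  · by_cases hx : x ∈ Sp g U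
    · rcases hnear x (Or.inl hx) with h1 | h1
      · exact h1.self_of_nhds.subset
      · exact h1.2.1
    · exact (hreg x hxX hx).subset
  · rcases hnear _ (Or.inr ⟨z, hSp z hz, v, hSp v hv, hvz, c, hc, rfl⟩) with h1 | h1
    · exact Or.inl h1
    · exact Or.inr ⟨h1.1, h1.2.2⟩
  · obtain ⟨t, ht, hfin⟩ := h.lf hb x
    refine ⟨t, ht, hfin.subset ?_⟩
    rintro y ⟨⟨hyX, hne⟩, hyt⟩
    refine ⟨?_, hyt⟩
    by_contra hcon
    exact hne (hreg y hyX hcon)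

end Vale.Agent.P032.H355
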