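import Vale.Agent.P032X.H355.SoftM
import Vale.Agent.P032X.H892.BlkE
import Vale.Agent.P032X.H892.Two
import Vale.Agent.P032W.H892.No6

/-!
# P032: the blocks of the pairs in connected frames

`MapC.ctn'` : the connectedness of a connected frame in the form `Ctn`.
`h6_mapC` : no six-coloured point in a connected frame.
`hX_of_dead` : if no frame is in `CV 5`, then in a connected frame with at most five colours at every
point no point with at least four colours has distance one from a five-coloured point.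
`n55_mapC`, `n54_mapC` : the same from the blocks of `H892.BlkE` (two five-coloured points; five and
four colours, after the block of the two-pair points).
`hX_marked` : the form of `H892.PlMap.pair_of`.
`PlMap.pair55_of` : two points at distance one of a six-coloured planar map which see all six colours
are not both points where five colours meet, if no connected frame has two five-coloured points at
distance one.
-/

open Set Filter Topology Metric

noncomputable section

namespace Vale.Agent.P032.H355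

open Vale.Agent.P032.Six Vale.Agent.P032.H61 Vale.Agent.P032.BlkE

variable {U : Fin 6 → Set ℂ} {T : ℂ → Set (Fin 6)}

theorem MapC.ctn' (h : MapC U T) (z : ℂ) : Ctn U T z := by
  filter_upwards [h.ctn z] with w hw i hi
  obtain ⟨Q, h1, h2, h3, h4, -⟩ := hw i hi
  exact ⟨Q, h1, h2, h3, h4⟩

/-- no six-coloured point in a connected frame -/
theorem h6_mapC (U : Fin 6 → Set ℂ) (T : ℂ → Set (Fin 6)) (h : MapC U T) (z : ℂ) :
    ¬ ∀ i, i ∈ T z := fun hz =>
  H892.no6 h.irr h.lf (fun i => h.ct z i (hz i)) (h.ctn' z) hz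

/-- at most five colours at every point -/
theorem le_five (h : MapC U T) (z : ℂ) : (T z).ncard ≤ 5 := by
  by_contra hc
  push Not at hc
  have h1 : T z = univ := Set.eq_of_subset_of_ncard_le (subset_univ _) (by
    rw [Set.ncard_univ, Nat.card_eq_fintype_card, Fintype.card_fin]
    omega) (Set.toFinite _)
  exact h6_mapC U T h z fun i => by rw [h1]; exact mem_univ i

/-- **the block of the pairs** in connected frames -/
theorem hX_of_dead {NW TC : ℕ} (hD : Dead (kap TC) (BlkV.CV 5 NW TC) []) :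
    ∀ U T, MapC U T → (∀ z, (T z).ncard ≤ 5) →
      ∀ z v, dist z v = 1 → (T z).ncard = 5 → 4 ≤ (T v).ncard → False := by
  intro U T h h5 z v hzv hz hv
  obtain ⟨T', h', he, hn⟩ := h.exists_soft
  have h1 := BlkV.pair_of_dead hD h'.irr h'.lf h'.ctn' hn
    (fun y => fix_le h'.irr he (by norm_num) h5 y) (z := z) (v := v) (by rw [dist_comm]; exact hzv)
    (by rw [he z (Irr_four_mem h.irr (by omega))]; exact hz)
  rw [he v (Irr_four_mem h.irr hv)] at h1
  omega

/-- **block X1** in connected frames -/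
theorem n55_mapC {NW TC : ℕ} (hD : Dead (kap TC) (CW (fun _ => True) 5 5 NW TC) [])
    (h : MapC U T) (h5 : ∀ z, (T z).ncard ≤ 5) : N55 T := by
  obtain ⟨T', h', he, hn⟩ := h.exists_soft
  have h1 := n55_of_dead hD h'.irr h'.lf h'.ctn' hn (fun y => fix_le h'.irr he (by norm_num) h5 y)
  intro x y hxy hx hy
  refine h1 x y hxy ?_ ?_
  · rw [he x (Irr_four_mem h.irr (by omega))]
    exact hx
  · rw [he y (Irr_four_mem h.irr (by omega))]
    exact hy

/-- **blocks X1, X2, X3** in connected frames: `hX2` is the block of the two-pair points in frames with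
soft walls on lines -/
theorem n54_mapC {NW TC : ℕ} (hD : Dead (kap TC) (CW (fun _ => True) 5 5 NW TC) [])
    (hX2 : ∀ U T, MapC U T → Ln U T → (∀ z, (T z).ncard ≤ 5) → N55 T → ND5 T)
    (hX3 : Dead (kap TC) (CW (fun T => N55 T ∧ ND5 T) 5 4 NW TC) [])
    (h : MapC U T) (h5 : ∀ z, (T z).ncard ≤ 5) : N54 T := by
  obtain ⟨T', h', he, hn⟩ := h.exists_soft
  have h5' : ∀ y, (T' y).ncard ≤ 5 := fun y => fix_le h'.irr he (by norm_num) h5 y
  have h55 := n55_mapC hD h' h5'
  have h1 := n54_of_dead hX3 h'.irr h'.lf h'.ctn' hn h5' h55 (hX2 U T' h' hn h5' h55)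
  intro x y hxy hx hy
  refine h1 x y hxy ?_ ?_
  · rw [he x (Irr_four_mem h.irr (by omega))]
    exact hx
  · rw [he y (Irr_four_mem h.irr hy)]
    exact hy

theorem hX_of_n54 (h54 : ∀ U T, MapC U T → (∀ z, (T z).ncard ≤ 5) → N54 T) :
    ∀ U T, MapC U T → (∀ z, (T z).ncard ≤ 5) →
      ∀ z v, dist z v = 1 → (T z).ncard = 5 → 4 ≤ (T v).ncard → False :=
  fun U T h h5 z v hzv hz hv => h54 U T h h5 z v hzv hz.ge hv

/-- the form of `H892.PlMap.pair_of` -/
theorem hX_marked (hX : ∀ U T, MapC U T → (∀ z, (T z).ncard ≤ 5) →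
      ∀ z v, dist z v = 1 → (T z).ncard = 5 → 4 ≤ (T v).ncard → False) :
    ∀ (U : Fin 6 → Set ℂ) (T : ℂ → Set (Fin 6)), Irr U T → LF3 U T →
      (∀ x, ∀ᶠ w in 𝓝 x, ∀ i ∈ T w, Cnn U x w i) → (∀ z, (T z).ncard ≤ 5) →
      ∀ z v, dist v z = 1 → 5 ≤ (T z).ncard → (T v).ncard ≤ 3 := by
  intro U T hI hL hC h5 z v hvz hz
  by_contra hv
  push Not at hv
  exact hX U T ⟨hI, hL, hC⟩ h5 z v (by rw [dist_comm]; exact hvz)
    (by have := h5 z; omega) hv

/-- **Two points at distance one which see all six colours**, from block X1 -/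
theorem PlMap.pair55_of (h55 : ∀ U T, MapC U T → (∀ z, (T z).ncard ≤ 5) → N55 T)
    {ι κ : Type*} {g : ι → ℝ → EuclideanSpace ℝ (Fin 2)}
    {G : κ → Set (EuclideanSpace ℝ (Fin 2))} (h : PlMap g G) (c : κ → Fin 6)
    (hc : ∀ f f', c f = c f' → ∀ x ∈ G f, ∀ y ∈ G f', dist x y ≠ 1)
    (x y : EuclideanSpace ℝ (Fin 2)) (hxy : dist x y = 1)
    (hx : ∀ i, ∃ f, c f = i ∧ ∃ p ∈ closure (G f), dist x p = 1)
    (hy : ∀ i, ∃ f, c f = i ∧ ∃ p ∈ closure (G f), dist y p = 1) :
    (∃ s : Finset (Fin 6), s.card = 2 ∧ ∀ f, c f ∈ s → x ∉ closure (G f)) ∨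
      ∃ s : Finset (Fin 6), s.card = 2 ∧ ∀ f, c f ∈ s → y ∉ closure (G f) := by
  classical
  by_contra hcon
  rw [not_or] at hcon
  obtain ⟨h1, h2⟩ := hcon
  have h3 : 5 ≤ (H892.colsAt G c x).ncard := by
    by_contra h4
    push Not at h4
    obtain ⟨s, hs1, hs2⟩ := H892.exists_missing (C := H892.colsAt G c x) (n := 2) (by omega)
    exact h1 ⟨s, hs1, fun f hf hxf => hs2 _ hf ⟨f, rfl, hxf⟩⟩
  have h4 : 5 ≤ (H892.colsAt G c y).ncard := by
    by_contra h4
    push Not at h4
    obtain ⟨s, hs1, hs2⟩ := H892.exists_missing (C := H892.colsAt G c y) (n := 2) (by omega)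
    exact h2 ⟨s, hs1, fun f hf hxf => hs2 _ hf ⟨f, rfl, hxf⟩⟩
  obtain ⟨φ, U, T, hI, hL, hCt, hT⟩ := H892.PlMap.exists_marked h c hc (P := {x, y})
    (Set.toFinite _) (by
      rintro p (rfl | rfl)
      · exact hx
      · exact hy) (by
      rintro p (rfl | rfl)
      · omega
      · omega)
  have h5 := Set.ncard_le_ncard (hT x (Or.inl rfl)) (Set.toFinite _)
  have h7 := Set.ncard_le_ncard (hT y (Or.inr rfl)) (Set.toFinite _)
  have hM : MapC U T := ⟨hI, hL, hCt⟩
  exact h55 U T hM (le_five hM) (φ.symm x) (φ.symm y)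
    (by rw [φ.symm.dist_map]; exact hxy) (by omega) (by omega)

end Vale.Agent.P032.H355
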