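import Vale.Agent.P032X.H355.Fix
import Vale.Agent.P032X.H849.Soft

/-!
# P032: soft walls on straight lines, no change on `XX U`

`MapC.exists_soft`: for every connected frame `MapC U T` there is a connected frame `MapC U T'` with
`T' = T` on `XX U`, such that every point off `XX U` with at least two colours has a dyadic real or
imaginary part (`Ln U T'`).  The construction of `H849.Soft` with marks: a locally finite set `M`
off `XX U` of points with one colour, such that each colour of a point `x` of `XX U` is the colour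
of marks arbitrarily close to `x`; a square of the colour `i` is admissible only if it contains no
mark of another colour.
-/

open Set Filter Topology Metric

noncomputable section

namespace Vale.Agent.P032.H355

open Vale.Agent.P032.Six Vale.Agent.P032.Six.Soft

namespace SoftM

/-- admissible squares with colour -/
def Adm (U : Fin 6 → Set ℂ) (T : ℂ → Set (Fin 6)) (M : Set ℂ) (κ : ℂ → Fin 6)
    (q : (ℕ × ℤ × ℤ) × Fin 6) : Prop :=
  Soft.Adm U T q ∧ ∀ m ∈ M, m ∈ Sq q.1 → κ m = q.2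

/-- the pieces -/
def V (U : Fin 6 → Set ℂ) (T : ℂ → Set (Fin 6)) (M : Set ℂ) (κ : ℂ → Fin 6)
    (q : (ℕ × ℤ × ℤ) × Fin 6) : Set ℂ :=
  {x | Adm U T M κ q ∧ x ∈ So q.1 ∧ ∀ q', Adm U T M κ q' →
    Encodable.encode q' < Encodable.encode q → x ∉ Sq q'.1}

/-- the new palettes -/
def T' (U : Fin 6 → Set ℂ) (T : ℂ → Set (Fin 6)) (M : Set ℂ) (κ : ℂ → Fin 6) (x : ℂ) :
    Set (Fin 6) :=
  {i | x ∈ closure (⋃ q : ℕ × ℤ × ℤ, V U T M κ (q, i))}

/-- marks -/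
structure Mk (U : Fin 6 → Set ℂ) (T : ℂ → Set (Fin 6)) (M : Set ℂ) (κ : ℂ → Fin 6) : Prop where
  off : ∀ m ∈ M, m ∉ XX U
  col : ∀ m ∈ M, κ m ∈ T m
  lf : ∀ x, x ∉ XX U → ∀ᶠ y in 𝓝 x, y ∈ M → x ∈ M ∧ κ y = κ x

variable {U : Fin 6 → Set ℂ} {T : ℂ → Set (Fin 6)} {M : Set ℂ} {κ : ℂ → Fin 6}

theorem isOpen_V (q : (ℕ × ℤ × ℤ) × Fin 6) : IsOpen (V U T M κ q) := by
  by_cases hq : Adm U T M κ q
  · have h1 : V U T M κ q = So q.1 ∩ (⋃ q' ∈ {q' | Adm U T M κ q' ∧ Encodable.encode q' <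
        Encodable.encode q}, Sq q'.1)ᶜ := by
      ext x
      simp only [V, hq, true_and, mem_ofPred_eq, mem_inter_iff, mem_compl_iff, mem_iUnion,
        not_exists]
      constructor
      · rintro ⟨h1, h2⟩
        exact ⟨h1, fun q' hq' hx => h2 q' hq'.1 hq'.2 hx⟩
      · rintro ⟨h1, h2⟩
        exact ⟨h1, fun q' ha he hx => h2 q' ⟨ha, he⟩ hx⟩
    rw [h1]
    have hfin : {q' : (ℕ × ℤ × ℤ) × Fin 6 | Adm U T M κ q' ∧ Encodable.encode q' <
        Encodable.encode q}.Finite := by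
      refine Set.Finite.subset (Set.Finite.preimage (f := Encodable.encode)
        (Encodable.encode_injective.injOn) (Set.finite_lt_nat (Encodable.encode q))) ?_
      rintro q' ⟨-, h⟩
      exact h
    exact (isOpen_So _).inter (hfin.isClosed_biUnion fun _ _ => isClosed_Sq _).isOpen_compl
  · have h1 : V U T M κ q = ∅ := by
      ext x
      simp [V, hq]
    rw [h1]; exact isOpen_empty

theorem V_disj {q q' : (ℕ × ℤ × ℤ) × Fin 6} {x : ℂ} (h : x ∈ V U T M κ q)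
    (h' : x ∈ V U T M κ q') : q = q' := by
  rcases lt_trichotomy (Encodable.encode q) (Encodable.encode q') with h1 | h1 | h1
  · exact absurd (So_sub _ h.2.1) (h'.2.2 q h.1 h1)
  · exact Encodable.encode_injective h1
  · exact absurd (So_sub _ h'.2.1) (h.2.2 q' h'.1 h1)

theorem V_sub_U {q : ℕ × ℤ × ℤ} {i : Fin 6} {x : ℂ} (h : x ∈ V U T M κ (q, i)) : x ∈ U i :=
  h.1.1.1 x (So_sub _ h.2.1) (mem_ball_self (by positivity))

theorem T'_V {q : ℕ × ℤ × ℤ} {i : Fin 6} {x : ℂ} (h : x ∈ V U T M κ (q, i)) :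
    T' U T M κ x = {i} := by
  ext j
  constructor
  · intro hj
    obtain ⟨y, hy, hy'⟩ := mem_closure_iff.1 hj _ (isOpen_V (q, i)) h
    obtain ⟨q', hq'⟩ := mem_iUnion.1 hy'
    have := V_disj hy hq'
    rw [Prod.mk.injEq] at this
    exact this.2.symm
  · rintro rfl
    exact subset_closure (mem_iUnion.2 ⟨q, h⟩)

/-- the admissible squares of a fine level -/
theorem exists_level (h : Irr U T) (hM : Mk U T M κ) {x : ℂ} (hx : x ∉ XX U) :
    ∃ n : ℕ, ∃ i, ∀ a b : ℤ, x ∈ Sq (n, a, b) → Adm U T M κ ((n, a, b), i) := by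
  classical
  obtain ⟨i, hi, hiM⟩ : ∃ i ∈ T x, x ∈ M → κ x = i := by
    by_cases hxM : x ∈ M
    · exact ⟨κ x, hM.col x hxM, fun _ => rfl⟩
    · obtain ⟨i, hi⟩ := h.ne x
      exact ⟨i, hi, fun h1 => absurd h1 hxM⟩
  obtain ⟨r, hr, hb⟩ := Metric.isOpen_iff.1 (h.mx.isOpen i) x (h.off x hx i hi)
  obtain ⟨r', hr', hb'⟩ := Metric.eventually_nhds_iff.1 (hM.lf x hx)
  set s := min r r' with hs
  have hs0 : 0 < s := lt_min hr hr'
  obtain ⟨n, hn⟩ := exists_nat_gt (6 / s)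
  have h2 : (n : ℝ) < 2 ^ n := by exact_mod_cast Nat.lt_two_pow_self
  have hp : (0 : ℝ) < 2 ^ n := by positivity
  have h3 : 6 / (2 : ℝ) ^ n < s := by
    rw [div_lt_iff₀ hp]
    rw [div_lt_iff₀ hs0] at hn
    nlinarith
  have h5 : (4 : ℝ) / 2 ^ n + 2 / 2 ^ n = 6 / 2 ^ n := by ring
  have h6 : (0 : ℝ) < 4 / 2 ^ n := by positivity
  have hsr : s ≤ r := min_le_left _ _
  have hsr' : s ≤ r' := min_le_right _ _
  refine ⟨n, i, fun a b hab => ⟨⟨fun y hy => ?_, x, hab, hi⟩, fun m hm hmq => ?_⟩⟩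
  · refine Subset.trans ?_ hb
    refine ball_subset_ball' ?_
    have h4 : dist y x ≤ 2 / 2 ^ n := dist_Sq hy hab
    simp only at h4 ⊢
    linarith
  · have h4 : dist m x ≤ 2 / 2 ^ n := dist_Sq hmq hab
    obtain ⟨h7, h8⟩ := hb' (by linarith) hm
    rw [h8]
    exact hiM h7

/-- off `XX U` the colours of `T'` come from squares containing the point -/
theorem T'_off (h : Irr U T) (hM : Mk U T M κ) {x : ℂ} (hx : x ∉ XX U) {i : Fin 6}
    (hi : i ∈ T' U T M κ x) : ∃ q : ℕ × ℤ × ℤ, Adm U T M κ (q, i) ∧ x ∈ Sq q := by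
  obtain ⟨n, c, hn⟩ := exists_level h hM hx
  obtain ⟨K, hK⟩ : ∃ K, ∀ a b : ℤ, x ∈ Sq (n, a, b) →
      Encodable.encode ((((n, a, b) : ℕ × ℤ × ℤ), c) : (ℕ × ℤ × ℤ) × Fin 6) ≤ K := by
    obtain ⟨K, hK⟩ := ((finite_Sq n x).image fun p : ℤ × ℤ =>
      Encodable.encode ((((n, p.1, p.2) : ℕ × ℤ × ℤ), c) : (ℕ × ℤ × ℤ) × Fin 6)).bddAbove
    exact ⟨K, fun a b hab => hK ⟨(a, b), hab, rfl⟩⟩
  have hfin : {q : ℕ × ℤ × ℤ | Encodable.encode ((q, i) : (ℕ × ℤ × ℤ) × Fin 6) ≤ K}.Finite := by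
    refine Set.Finite.preimage (f := fun q : ℕ × ℤ × ℤ =>
      Encodable.encode ((q, i) : (ℕ × ℤ × ℤ) × Fin 6)) (s := {m | m ≤ K}) ?_ (Set.finite_le_nat K)
    intro a _ b _ hab
    have := Encodable.encode_injective hab
    rw [Prod.mk.injEq] at this
    exact this.1
  have h1 : x ∈ closure (⋃ q ∈ {q : ℕ × ℤ × ℤ | Encodable.encode
      ((q, i) : (ℕ × ℤ × ℤ) × Fin 6) ≤ K}, V U T M κ (q, i)) := by
    rw [mem_closure_iff_frequently]
    have h2 : ∃ᶠ w in 𝓝 x, w ∈ ⋃ q : ℕ × ℤ × ℤ, V U T M κ (q, i) :=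
      mem_closure_iff_frequently.1 hi
    refine (h2.and_eventually (near_Sq n x)).mono ?_
    rintro w ⟨hw, a, b, hab, hwab⟩
    obtain ⟨q, hq⟩ := mem_iUnion.1 hw
    refine mem_iUnion₂.2 ⟨q, ?_, hq⟩
    by_contra hcon
    have hcon : ¬ Encodable.encode ((q, i) : (ℕ × ℤ × ℤ) × Fin 6) ≤ K := hcon
    have h3 := hK a b hab
    exact hq.2.2 _ (hn a b hab) (by omega) hwab
  rw [hfin.closure_biUnion] at h1
  obtain ⟨q, -, hq⟩ := mem_iUnion₂.1 h1
  refine ⟨q, ?_, ?_⟩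
  · obtain ⟨w, hw⟩ := (mem_closure_iff_frequently.1 hq).exists
    exact hw.1
  · have h2 : V U T M κ (q, i) ⊆ Sq q := fun w hw => So_sub _ hw.2.1
    exact (isClosed_Sq q).closure_subset_iff.2 h2 hq

/-- off `XX U` and off the lines the palette has one colour -/
theorem exists_V (h : Irr U T) (hM : Mk U T M κ) {x : ℂ} (hx : x ∉ XX U) (hr : x.re ∉ Dy)
    (hi : x.im ∉ Dy) : ∃ q : ℕ × ℤ × ℤ, ∃ i, x ∈ V U T M κ (q, i) := by
  classical
  obtain ⟨n, c, hn⟩ := exists_level h hM hx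
  obtain ⟨a, b, hab, -⟩ := (near_Sq n x).self_of_nhds
  have hne : {m : ℕ | ∃ q : (ℕ × ℤ × ℤ) × Fin 6, Adm U T M κ q ∧ x ∈ Sq q.1 ∧
      Encodable.encode q = m}.Nonempty := ⟨_, ((n, a, b), c), hn a b hab, hab, rfl⟩
  obtain ⟨m, ⟨⟨q, i⟩, hq, hxq, rfl⟩, hmin⟩ := WellFounded.has_min
    (r := ((· < ·) : ℕ → ℕ → Prop)) wellFounded_lt _ hne
  refine ⟨q, i, hq, So_of_Sq hxq hr hi, fun q' hq' hlt hxq' => ?_⟩
  exact hmin _ ⟨q', hq', hxq', rfl⟩ hlt

theorem dense_V (h : Irr U T) (hM : Mk U T M κ) :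
    Dense (⋃ i, ⋃ q : ℕ × ℤ × ℤ, V U T M κ (q, i)) := by
  have h1 : Dense ((⋃ i, U i) ∩ {x : ℂ | x.re ∉ Dy ∧ x.im ∉ Dy}) :=
    h.mx.dense.inter_of_isOpen_left dense_off (isOpen_iUnion h.mx.isOpen)
  refine h1.mono ?_
  rintro x ⟨hx, hr, hi⟩
  have hX : x ∉ XX U := by
    intro hcon
    obtain ⟨i, hi⟩ := mem_iUnion.1 hx
    exact hcon i hi
  obtain ⟨q, i, hq⟩ := exists_V h hM hX hr hi
  exact mem_iUnion.2 ⟨i, mem_iUnion.2 ⟨q, hq⟩⟩

/-- on `XX U` the new palettes are smaller -/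
theorem T'_sub (h : Irr U T) {x : ℂ} (hx : x ∈ XX U) : T' U T M κ x ⊆ T x := by
  intro i hi
  by_contra hcon
  obtain ⟨ε, hε, hb⟩ := Metric.isOpen_iff.1 (h.closed i).isOpen_compl x hcon
  obtain ⟨w, hw, hwx⟩ := Metric.mem_closure_iff.1 hi (ε / 2) (by positivity)
  obtain ⟨q, hq⟩ := mem_iUnion.1 hw
  obtain ⟨y, hy, hyi⟩ := hq.1.1.2
  have hp : (0 : ℝ) < 2 ^ q.1 := by positivity
  have h1 : 4 / 2 ^ q.1 ≤ dist w x := by
    by_contra hlt
    push Not at hlt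
    exact hx i (hq.1.1.1 w (So_sub _ hq.2.1) (by rw [mem_ball, dist_comm]; exact hlt))
  have h2 : dist w y ≤ 2 / 2 ^ q.1 := dist_Sq (So_sub _ hq.2.1) hy
  have h3 : (2 : ℝ) / 2 ^ q.1 ≤ 4 / 2 ^ q.1 := by gcongr; norm_num
  refine hb (show y ∈ ball x ε from ?_) hyi
  rw [mem_ball]
  have h4 := dist_triangle y w x
  rw [dist_comm y w] at h4
  rw [dist_comm x w] at hwx
  linarith

theorem T'_ne (h : Irr U T) (hM : Mk U T M κ) (x : ℂ) : (T' U T M κ x).Nonempty := by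
  have h1 : x ∈ closure (⋃ i, ⋃ q : ℕ × ℤ × ℤ, V U T M κ (q, i)) := dense_V h hM x
  rw [closure_iUnion_of_finite] at h1
  obtain ⟨i, hi⟩ := mem_iUnion.1 h1
  exact ⟨i, hi⟩

/-- the marks keep their colour -/
theorem mem_mark (h : Irr U T) (hM : Mk U T M κ) {m : ℂ} (hm : m ∈ M) : κ m ∈ T' U T M κ m := by
  obtain ⟨i, hi⟩ := T'_ne h hM m
  obtain ⟨q, hq, hmq⟩ := T'_off h hM (hM.off m hm) hi
  have h1 : κ m = i := hq.2 m hm hmq
  rw [h1]
  exact hi

/-- **Existence** -/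
theorem irr_T' (h : Irr U T) (hM : Mk U T M κ) : Irr U (T' U T M κ) where
  mx := h.mx
  max := fun i x hx hf => h.max i x (by
    by_cases hX : x ∈ XX U
    · exact Or.inr (T'_sub h hX (hx.resolve_left fun h1 => h1 hX))
    · exact Or.inl hX) hf
  closed := fun i => isClosed_closure
  ne := T'_ne h hM
  sub := by
    intro x i hi
    refine closure_mono ?_ hi
    exact iUnion_subset fun q w hw => V_sub_U hw
  off := by
    intro x hx i hi
    obtain ⟨q, hq, hxq⟩ := T'_off h hM hx hi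
    exact hq.1.1 x hxq (mem_ball_self (by positivity))
  pure := by
    intro x i hi
    refine (mem_closure_iff_frequently.1 hi).mono fun w hw => ?_
    obtain ⟨q, hq⟩ := mem_iUnion.1 hw
    exact T'_V hq

theorem ln_T' (h : Irr U T) (hM : Mk U T M κ) : Ln U (T' U T M κ) := by
  intro x hx h2
  by_contra hcon
  push Not at hcon
  obtain ⟨q, i, hq⟩ := exists_V h hM hx hcon.1 hcon.2
  rw [T'_V hq, Set.ncard_singleton] at h2
  omega

theorem eq_T' (h : Irr U T) (hM : Mk U T M κ)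
    (hd : ∀ x ∈ XX U, ∀ i ∈ T x, ∃ᶠ y in 𝓝 x, y ∈ M ∧ κ y = i) {x : ℂ} (hx : x ∈ XX U) :
    T' U T M κ x = T x := by
  refine Subset.antisymm (T'_sub h hx) fun i hi => ?_
  refine ((irr_T' h hM).closed i).closure_subset (mem_closure_iff_frequently.2 ?_)
  refine (hd x hx i hi).mono ?_
  rintro y ⟨hy, rfl⟩
  exact mem_mark h hM hy

/-- connected germs stay connected -/
theorem cnn_T' (h : Irr U T) (hM : Mk U T M κ) {z : ℂ}
    (hz : ∀ᶠ w in 𝓝 z, ∀ i ∈ T w, Cnn U z w i) :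
    ∀ᶠ w in 𝓝 z, ∀ i ∈ T' U T M κ w, Cnn U z w i := by
  have h' := irr_T' h hM
  by_cases hX : z ∈ XX U
  · obtain ⟨ε, hε, hb⟩ := Metric.eventually_nhds_iff.1 hz
    refine Metric.eventually_nhds_iff.2 ⟨ε / 2, by positivity, fun w hw c hc => ?_⟩
    by_cases hwX : w ∈ XX U
    · exact hb (by linarith) c (T'_sub h hwX hc)
    · obtain ⟨q, hq, hwq⟩ := T'_off h hM hwX hc
      obtain ⟨y, hy, hyc⟩ := hq.1.2
      have h1 : 4 / 2 ^ q.1 ≤ dist w z := by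
        by_contra hlt
        push Not at hlt
        exact hX c (hq.1.1 w hwq (by rw [mem_ball, dist_comm]; exact hlt))
      have h2 : dist y w ≤ 2 / 2 ^ q.1 := dist_Sq hy hwq
      have h3 : (2 : ℝ) / 2 ^ q.1 ≤ 4 / 2 ^ q.1 := by gcongr; norm_num
      have h4 := dist_triangle y w z
      obtain ⟨Q, hQU, hQ, hzQ, hyQ, hQn⟩ := hb (y := y) (by linarith) c hyc
      refine ⟨Q ∪ Sq q, union_subset hQU ?_, hQ.union y hyQ hy
        (convex_Sq q).isPreconnected, Or.inl hzQ, Or.inr hwq, hQn.mono ?_⟩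
      · exact fun x hx => subset_closure (hq.1.1 x hx (mem_ball_self (by positivity)))
      · exact inter_subset_inter_left _ subset_union_left
  · have h1 : ∀ c, ∀ᶠ w in 𝓝 z, c ∈ T' U T M κ z → w ∈ U c := by
      intro c
      by_cases hc : c ∈ T' U T M κ z
      · filter_upwards [(h.mx.isOpen c).mem_nhds (h'.off z hX c hc)] with w hw _
        exact hw
      · exact Eventually.of_forall fun w hw => absurd hw hc
    obtain ⟨ε, hε, hb⟩ := Metric.eventually_nhds_iff.1 ((eventually_all.2 h1).and (h'.nhd z))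
    refine Metric.eventually_nhds_iff.2 ⟨ε, hε, fun w hw c hc => ?_⟩
    have hcz : c ∈ T' U T M κ z := (hb hw).2 hc
    exact ⟨ball z ε, fun x hx => subset_closure ((hb hx).1 c hcz),
      (convex_ball z ε).isPreconnected, mem_ball_self hε, hw,
      ⟨z, mem_ball_self hε, (hb (by rw [dist_self]; exact hε)).1 c hcz⟩⟩

/-! ### existence of marks -/

/-- squares whose size is comparable with the distance from `XX U` -/
def Wh (U : Fin 6 → Set ℂ) (q : ℕ × ℤ × ℤ) : Prop :=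
  ∃ w ∈ Sq q, 4 / 2 ^ q.1 ≤ infDist w (XX U) ∧ infDist w (XX U) ≤ 16 / 2 ^ q.1

theorem finite_meet (n : ℕ) (x : ℂ) (r : ℝ) :
    {p : ℤ × ℤ | ∃ y ∈ Sq (n, p.1, p.2), dist y x ≤ r}.Finite := by
  refine ((Set.finite_Icc (⌈(x.re - r) * 2 ^ n⌉ - 1) ⌊(x.re + r) * 2 ^ n⌋).prod
    (Set.finite_Icc (⌈(x.im - r) * 2 ^ n⌉ - 1) ⌊(x.im + r) * 2 ^ n⌋)).subset ?_
  rintro ⟨a, b⟩ ⟨y, ⟨h1, h2, h3, h4⟩, hy⟩
  simp only at h1 h2 h3 h4
  have hp : (0 : ℝ) < 2 ^ n := by positivity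
  have e1 : |y.re - x.re| ≤ r := by
    rw [← Complex.sub_re]
    exact (Complex.abs_re_le_norm _).trans (by rw [← dist_eq_norm]; exact hy)
  have e2 : |y.im - x.im| ≤ r := by
    rw [← Complex.sub_im]
    exact (Complex.abs_im_le_norm _).trans (by rw [← dist_eq_norm]; exact hy)
  rw [abs_le] at e1 e2
  refine ⟨⟨?_, Int.le_floor.2 ?_⟩, ⟨?_, Int.le_floor.2 ?_⟩⟩
  · have := Int.ceil_le.2 (show (x.re - r) * 2 ^ n ≤ ((a + 1 : ℤ) : ℝ) by
      push_cast; nlinarith)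
    simp only; omega
  · nlinarith
  · have := Int.ceil_le.2 (show (x.im - r) * 2 ^ n ≤ ((b + 1 : ℤ) : ℝ) by
      push_cast; nlinarith)
    simp only; omega
  · nlinarith

theorem exists_marks (h : Irr U T) : ∃ M : Set ℂ, ∃ κ : ℂ → Fin 6, (∀ m ∈ M, m ∉ XX U) ∧
    (∀ m ∈ M, κ m ∈ T m) ∧ (∀ x, x ∉ XX U → ∀ᶠ y in 𝓝 x, y ∈ M → y = x) ∧
    ∀ x ∈ XX U, ∀ i ∈ T x, ∃ᶠ y in 𝓝 x, y ∈ M ∧ κ y = i := by
  classical
  have hX : IsClosed (XX U) := h.mx.isClosed_XX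
  have hf : ∀ q : (ℕ × ℤ × ℤ) × Fin 6, ∃ y, (∃ y ∈ Sq q.1, T y = {q.2}) →
      y ∈ Sq q.1 ∧ T y = {q.2} := by
    intro q
    by_cases hq : ∃ y ∈ Sq q.1, T y = {q.2}
    · obtain ⟨y, hy, hy'⟩ := hq
      exact ⟨y, fun _ => ⟨hy, hy'⟩⟩
    · exact ⟨0, fun hc => absurd hc hq⟩
  choose f hf using hf
  set Q : Set ((ℕ × ℤ × ℤ) × Fin 6) := {q | Wh U q.1 ∧ ∃ y ∈ Sq q.1, T y = {q.2}} with hQ
  have hκ : ∃ κ : ℂ → Fin 6, ∀ y i, T y = {i} → κ y = i := by
    refine ⟨fun y => if hy : ∃ i, T y = {i} then hy.choose else 0, fun y i hi => ?_⟩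
    have hy : ∃ i, T y = {i} := ⟨i, hi⟩
    simp only [dif_pos hy]
    exact (Set.singleton_injective (hi.symm.trans hy.choose_spec)).symm
  obtain ⟨κ, hκ⟩ := hκ
  refine ⟨f '' Q, κ, ?_, ?_, ?_, ?_⟩
  · rintro _ ⟨q, ⟨-, hq⟩, rfl⟩ hcon
    have h1 := (hf q hq).2
    obtain ⟨j, hj, hne⟩ := h.two hcon q.2
    rw [h1] at hj
    exact hne hj
  · rintro _ ⟨q, ⟨-, hq⟩, rfl⟩
    have h1 := (hf q hq).2
    rw [hκ _ _ h1, h1]
    rfl
  · intro x hx
    by_cases hne : (XX U).Nonempty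
    · have hd : 0 < infDist x (XX U) := (hX.notMem_iff_infDist_pos hne).1 hx
      set d := infDist x (XX U) with hdd
      obtain ⟨N, hN⟩ := exists_nat_gt (36 / d)
      have hfin : (f '' {q : (ℕ × ℤ × ℤ) × Fin 6 | q.1.1 ≤ N ∧
          ∃ y ∈ Sq q.1, dist y x ≤ d}).Finite := by
        refine Set.Finite.image f ?_
        have h1 : {q : (ℕ × ℤ × ℤ) × Fin 6 | q.1.1 ≤ N ∧ ∃ y ∈ Sq q.1, dist y x ≤ d} ⊆
            ⋃ n ∈ {n : ℕ | n ≤ N}, (fun p : (ℤ × ℤ) × Fin 6 => ((n, p.1.1, p.1.2), p.2)) ''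
              ({p : ℤ × ℤ | ∃ y ∈ Sq (n, p.1, p.2), dist y x ≤ d} ×ˢ univ) := by
          rintro ⟨⟨n, a, b⟩, i⟩ ⟨hn, hy⟩
          exact mem_iUnion₂.2 ⟨n, hn, ⟨((a, b), i), ⟨hy, mem_univ _⟩, rfl⟩⟩
        refine Set.Finite.subset ?_ h1
        exact (Set.finite_le_nat N).biUnion fun n _ =>
          ((finite_meet n x d).prod Set.finite_univ).image _
      have hcl : ∀ᶠ y in 𝓝 x, y ∉ (f '' {q : (ℕ × ℤ × ℤ) × Fin 6 | q.1.1 ≤ N ∧
          ∃ y ∈ Sq q.1, dist y x ≤ d}) \ {x} :=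
        (hfin.subset sdiff_subset).isClosed.isOpen_compl.mem_nhds fun hc => hc.2 rfl
      filter_upwards [hcl, ball_mem_nhds x (half_pos hd)] with y hy hyd hyM
      by_contra hyx
      refine hy ⟨?_, hyx⟩
      obtain ⟨q, hq, rfl⟩ := hyM
      refine ⟨q, ⟨?_, ?_⟩, rfl⟩
      · obtain ⟨⟨w, hw, hw1, hw2⟩, hq2⟩ := hq
        have h1 := (hf q hq2).1
        have h2 : dist (f q) w ≤ 2 / 2 ^ q.1.1 := dist_Sq h1 hw
        have h3 : infDist x (XX U) ≤ infDist w (XX U) + dist x w := infDist_le_infDist_add_dist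
        have h4 := dist_triangle x (f q) w
        rw [mem_ball, dist_comm] at hyd
        have hp : (0 : ℝ) < 2 ^ q.1.1 := by positivity
        have h5 : d / 2 ≤ 18 / 2 ^ q.1.1 := by
          have : (16 : ℝ) / 2 ^ q.1.1 + 2 / 2 ^ q.1.1 = 18 / 2 ^ q.1.1 := by ring
          linarith
        rw [le_div_iff₀ hp] at h5
        rw [div_lt_iff₀ hd] at hN
        have h6 : (q.1.1 : ℝ) < 2 ^ q.1.1 := by exact_mod_cast Nat.lt_two_pow_self
        by_contra hcon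
        push Not at hcon
        have h7 : (N : ℝ) < q.1.1 := by exact_mod_cast hcon
        nlinarith
      · exact ⟨f q, (hf q hq.2).1, by rw [mem_ball] at hyd; linarith⟩
    · rw [not_nonempty_iff_eq_empty] at hne
      filter_upwards with y hy
      obtain ⟨q, ⟨⟨w, hw, hw1, hw2⟩, -⟩, rfl⟩ := hy
      rw [hne, infDist_empty] at hw1
      have hp : (0 : ℝ) < 4 / 2 ^ q.1.1 := by positivity
      linarith
  · intro x hx i hi
    rw [frequently_iff]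
    intro N hN
    obtain ⟨ε, hε, hb⟩ := Metric.mem_nhds_iff.1 hN
    set δ := min (ε / 4) 1 with hδ
    have hδ0 : 0 < δ := lt_min (by positivity) one_pos
    obtain ⟨y, hy, hyx⟩ := ((h.pure x i hi).and_eventually (ball_mem_nhds x hδ0)).exists
    have hyx : dist y x < δ := hyx
    have hyX : y ∉ XX U := by
      intro hcon
      obtain ⟨j, hj, hne⟩ := h.two hcon i
      rw [hy] at hj
      exact hne hj
    have hd : 0 < infDist y (XX U) := (hX.notMem_iff_infDist_pos ⟨x, hx⟩).1 hyX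
    have hd2 : infDist y (XX U) ≤ dist y x := infDist_le_dist_of_mem hx
    set d := infDist y (XX U) with hdd
    have hex : ∃ n : ℕ, 4 / 2 ^ n ≤ d := by
      obtain ⟨n, hn⟩ := exists_nat_gt (4 / d)
      refine ⟨n, ?_⟩
      have h6 : (n : ℝ) < 2 ^ n := by exact_mod_cast Nat.lt_two_pow_self
      have hp : (0 : ℝ) < 2 ^ n := by positivity
      rw [div_le_iff₀ hp]
      rw [div_lt_iff₀ hd] at hn
      nlinarith
    obtain ⟨n, hn, hmin⟩ := WellFounded.has_min (r := ((· < ·) : ℕ → ℕ → Prop)) wellFounded_lt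
      {n : ℕ | 4 / 2 ^ n ≤ d} hex
    have hn : 4 / 2 ^ n ≤ d := hn
    have hn16 : d ≤ 16 / 2 ^ n := by
      rcases Nat.eq_zero_or_pos n with h0 | h0
      · subst h0
        have : δ ≤ 1 := min_le_right _ _
        norm_num at hn ⊢
        linarith
      · obtain ⟨m, rfl⟩ : ∃ m, n = m + 1 := ⟨n - 1, by omega⟩
        have h7 : ¬ 4 / 2 ^ m ≤ d := fun hc => hmin m hc (Nat.lt_succ_self m)
        push Not at h7
        have h8 : (16 : ℝ) / 2 ^ (m + 1) = 2 * (4 / 2 ^ m) := by rw [pow_succ]; ring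
        rw [h8]
        have hp : (0 : ℝ) < 4 / 2 ^ m := by positivity
        linarith
    obtain ⟨a, b, hab, -⟩ := (near_Sq n y).self_of_nhds
    have hq : (((n, a, b) : ℕ × ℤ × ℤ), i) ∈ Q := ⟨⟨y, hab, hn, hn16⟩, y, hab, hy⟩
    obtain ⟨h1, h2⟩ := hf ((n, a, b), i) hq.2
    refine ⟨f ((n, a, b), i), hb ?_, ⟨_, hq, rfl⟩, hκ _ _ h2⟩
    have h3 : dist (f ((n, a, b), i)) y ≤ 2 / 2 ^ n := dist_Sq h1 hab
    have h4 := dist_triangle (f ((n, a, b), i)) y x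
    have h5 : (2 : ℝ) / 2 ^ n ≤ 4 / 2 ^ n := by gcongr; norm_num
    have h6 : δ ≤ ε / 4 := min_le_left _ _
    rw [mem_ball]
    linarith

/-- marks which contain a given set of points with one colour -/
theorem exists_marks_on (h : Irr U T) {A : Set ℂ}
    (hA : ∀ x ∈ A, x ∉ XX U → (T x).ncard = 1)
    (hAc : ∀ x, x ∉ XX U → x ∉ A → ∀ᶠ y in 𝓝 x, y ∉ A) : ∃ M κ, Mk U T M κ ∧
    (∀ x ∈ XX U, ∀ i ∈ T x, ∃ᶠ y in 𝓝 x, y ∈ M ∧ κ y = i) ∧ ∀ x ∈ A, x ∉ XX U → x ∈ M := by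
  classical
  obtain ⟨M, κ, h1, h2, h3, h4⟩ := exists_marks h
  have hs : ∀ y ∈ A \ XX U, ∃ i, T y = {i} := fun y hy => Set.ncard_eq_one.1 (hA y hy.1 hy.2)
  obtain ⟨κ', hκ⟩ : ∃ κ' : ℂ → Fin 6, (∀ y ∈ A \ XX U, T y = {κ' y}) ∧
      ∀ y, y ∉ A \ XX U → κ' y = κ y := by
    refine ⟨fun y => if hy : y ∈ A \ XX U then (hs y hy).choose else κ y, fun y hy => ?_,
      fun y hy => ?_⟩
    · simp only [dif_pos hy]
      exact (hs y hy).choose_spec
    · simp only [dif_neg hy]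
  obtain ⟨hκ1, hκ2⟩ := hκ
  have hκM : ∀ y ∈ M, κ' y = κ y := by
    intro y hy
    by_cases hyA : y ∈ A \ XX U
    · have g1 := h2 y hy
      rw [hκ1 y hyA] at g1
      exact g1.symm
    · exact hκ2 y hyA
  have hcol : ∀ m ∈ M ∪ A \ XX U, κ' m ∈ T m := by
    rintro m (hm | hm)
    · rw [hκM m hm]
      exact h2 m hm
    · rw [hκ1 m hm]
      rfl
  refine ⟨M ∪ A \ XX U, κ', ⟨?_, hcol, ?_⟩, ?_, fun x hx hxX => Or.inr ⟨hx, hxX⟩⟩
  · rintro m (hm | hm)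
    · exact h1 m hm
    · exact hm.2
  · intro x hx
    by_cases hxA : x ∈ A
    · filter_upwards [h.nhd x] with y hy hyM
      refine ⟨Or.inr ⟨hxA, hx⟩, ?_⟩
      have g1 := hy (hcol y hyM)
      rw [hκ1 x ⟨hxA, hx⟩] at g1
      exact g1
    · filter_upwards [h3 x hx, hAc x hx hxA] with y hy hyA hyM
      rcases hyM with hyM | hyM
      · have g1 := hy hyM
        subst g1
        exact ⟨Or.inl hyM, rfl⟩
      · exact absurd hyM.1 hyA
  · intro x hx i hi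
    refine (h4 x hx i hi).mono ?_
    rintro y ⟨hy, hyi⟩
    exact ⟨Or.inl hy, by rw [hκM y hy]; exact hyi⟩

/-- on the marks the palettes have one colour, the colour of the mark -/
theorem eq_mark (h : Irr U T) (hM : Mk U T M κ) {m : ℂ} (hm : m ∈ M) : T' U T M κ m = {κ m} := by
  refine Set.eq_singleton_iff_unique_mem.2 ⟨mem_mark h hM hm, fun i hi => ?_⟩
  obtain ⟨q, hq, hmq⟩ := T'_off h hM (hM.off m hm) hi
  exact (hq.2 m hm hmq).symm

end SoftM

variable {U : Fin 6 → Set ℂ} {T : ℂ → Set (Fin 6)}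

/-- **Soft walls on straight lines in connected frames**, no change on a given set `A` on which the
palettes off `XX U` have one colour -/
theorem MapC.exists_soft_on (h : MapC U T) {A : Set ℂ}
    (hA : ∀ x ∈ A, x ∉ XX U → (T x).ncard = 1)
    (hAc : ∀ x, x ∉ XX U → x ∉ A → ∀ᶠ y in 𝓝 x, y ∉ A) :
    ∃ T', MapC U T' ∧ (∀ x ∈ XX U, T' x = T x) ∧ (∀ x ∈ A, T' x = T x) ∧ Ln U T' := by
  obtain ⟨M, κ, hM, hd, hAM⟩ := SoftM.exists_marks_on h.irr hA hAc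
  have he : ∀ x ∈ XX U, SoftM.T' U T M κ x = T x := fun x hx => SoftM.eq_T' h.irr hM hd hx
  refine ⟨SoftM.T' U T M κ, ⟨SoftM.irr_T' h.irr hM, ?_, fun x => SoftM.cnn_T' h.irr hM (h.ctn x)⟩,
    he, fun x hx => ?_, SoftM.ln_T' h.irr hM⟩
  · have hlf : {y | y ∈ XX U ∧ 3 ≤ (SoftM.T' U T M κ y).ncard} =
        {y | y ∈ XX U ∧ 3 ≤ (T y).ncard} := by
      ext y
      constructor
      · rintro ⟨a, b⟩
        rw [he y a] at b
        exact ⟨a, b⟩
      · rintro ⟨a, b⟩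
        rw [← he y a] at b
        exact ⟨a, b⟩
    intro x
    obtain ⟨t, ht, hfin⟩ := h.lf x
    refine ⟨t, ht, ?_⟩
    rw [hlf]
    exact hfin
  · by_cases hX : x ∈ XX U
    · exact he x hX
    · have h1 := hAM x hx hX
      rw [SoftM.eq_mark h.irr hM h1]
      obtain ⟨i, hi⟩ := Set.ncard_eq_one.1 (hA x hx hX)
      have h2 := hM.col x h1
      rw [hi] at h2 ⊢
      have h3 : κ x = i := h2
      rw [h3]

/-- **Soft walls on straight lines in connected frames.** -/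
theorem MapC.exists_soft (h : MapC U T) : ∃ T', MapC U T' ∧ (∀ x ∈ XX U, T' x = T x) ∧
    Ln U T' := by
  obtain ⟨T', h1, h2, -, h3⟩ := h.exists_soft_on (A := ∅) (fun x hx => absurd hx (notMem_empty x))
    (fun x _ _ => Eventually.of_forall fun y => notMem_empty y)
  exact ⟨T', h1, h2, h3⟩

end Vale.Agent.P032.H355
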