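import Vale.Agent.P032X.H355.ZK
import Vale.Agent.P032X.H355.SoftM
import Vale.Agent.P032X.H942.Gam

/-!
# P032: the data of the second block in one connected frame with soft walls on lines

`DBlk` : a connected frame with at most five colours at every point, without five-coloured points at
distance one from points with at least four colours, with soft walls on lines, a two-pair point
`z` whose circle carries only the two pairs, and a four-coloured point `V` of the circle of one of the
kinds of `H942.Spc`, the pairs of its circle are equal or disjoint.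
`MapPr.dblk` : such data from a special point of the minimal frame.
`no_map_of_spc` : no six-coloured planar map, from the block of the pairs, the existence of special points
and the block `DBlk`.
-/

open Set Filter Topology Metric

noncomputable section

namespace Vale.Agent.P032.H355

open Vale.Agent.P032.Six Vale.Agent.P032.S5.H767 Vale.Agent.P032.S5.H358 Vale.Agent.P032.H942

/-- the data of the block of the two-pair points -/
structure DBlk (U : Fin 6 → Set ℂ) (T : ℂ → Set (Fin 6)) (z : ℂ) (a b c d e f : Fin 6) (V : ℂ) :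
    Prop where
  map : MapC U T
  ln : Ln U T
  le : ∀ y, (T y).ncard ≤ 5
  noX : ∀ z v, dist z v = 1 → (T z).ncard = 5 → 4 ≤ (T v).ncard → False
  dpt : DPt T z a b c d
  only : Only T z a b c d
  nd : [a, b, c, d, e, f].Nodup
  dist : dist V z = 1
  four : (T V).ncard = 4
  pd : Pd T V
  kind : V ∈ closure (Ex T z {a, b}) ∨ T V = {a, c, e, f} ∨
    (T V = {a, b, e, f} ∧ ∃ V', Dist.dist V' z = 1 ∧ Dist.dist V V' = 1 ∧ e ∈ T V' ∧ f ∈ T V')

theorem MapPr.dblk {U : Fin 6 → Set ℂ} {T T' : ℂ → Set (Fin 6)} (h : MapPr U T T')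
    (hX : ∀ z v, Dist.dist z v = 1 → (T' z).ncard = 5 → 4 ≤ (T' v).ncard → False)
    {z V : ℂ} {a b c d e f : Fin 6} (S : Spc T z a b c d e f V) :
    ∃ T'', DBlk U T'' z a b c d e f V := by
  obtain ⟨h1, h2, h3, h4, h5, h6⟩ := h.pair_near hX (by rw [dist_comm]; exact S.dist) S.dpt S.four
  obtain ⟨T'', hm, he, hn⟩ := h.cn.exists_soft
  have hzX : z ∈ XX U := Irr_four_mem h.cn.irr (dpt_card h3).ge
  have hVX : V ∈ XX U := Irr_four_mem h.cn.irr h5.ge
  refine ⟨T'', hm, hn, fix_le hm.irr he (by norm_num) h.le', fun x y hxy hx hy => ?_,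
    fix_dpt h.cn.irr he h3, fix_only h.cn.irr hm.irr he (dpt_card h3).ge h4, S.nd, S.dist, ?_,
    fix_pd h.cn.irr hm.irr he h5.ge h6, ?_⟩
  · have g1 : x ∈ XX U := Irr_four_mem hm.irr (by omega)
    have g2 : y ∈ XX U := Irr_four_mem hm.irr hy
    rw [he x g1] at hx
    rw [he y g2] at hy
    exact hX x y hxy hx hy
  · rw [he V hVX]
    exact h5
  · rcases S.kind with hk | hk | ⟨hk, V', g1, g2, g3, g4⟩
    · left
      rw [mem_closure_iff_frequently] at hk ⊢
      refine (hk.and_eventually (eventually_eventually_nhds.2 h2)).mono ?_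
      rintro y ⟨⟨hy1, hy2⟩, hy3⟩
      refine ⟨hy1, ?_⟩
      filter_upwards [hy2, nhdsWithin_le_nhds hy3, self_mem_nhdsWithin] with q hq hq2 hqz
      have g0 : T' q = {a, b} := by rw [← hq2]; exact hq
      have g5 : q ∈ XX U := Irr_circ_mem h.cn.irr (z := z) (mem_sphere.1 hqz) (i := a)
        (by rw [g0]; simp) (by rw [h3.pal]; simp)
      rw [he q g5]
      exact g0
    · right; left
      rw [he V hVX, ← h2.self_of_nhds]
      exact hk
    · right; right
      have g5 : V' ∈ XX U := h.fr.irr.mem_XX (y := V) (by rw [dist_comm]; exact g2) g3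
        (h.fr.irr.sub V (by rw [hk]; simp))
      refine ⟨by rw [he V hVX, ← h2.self_of_nhds]; exact hk, V', g1, g2, ?_, ?_⟩
      · rw [he V' g5]
        exact h.subX V' g5 g3
      · rw [he V' g5]
        exact h.subX V' g5 g4

/-- **No six-coloured planar map**, from the two blocks and the existence of special points -/
theorem no_map_of_spc (h6 : ∀ U T, MapC U T → ∀ z, ¬ ∀ i, i ∈ T z)
    (hX : ∀ U T, MapC U T → (∀ z, (T z).ncard ≤ 5) →
      ∀ z v, dist z v = 1 → (T z).ncard = 5 → 4 ≤ (T v).ncard → False)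
    (red : ∀ U T, Irr U T → Mn U T → (∀ z, (T z).ncard ≤ 5) →
      (∀ z v, dist z v = 1 → (T z).ncard = 5 → 4 ≤ (T v).ncard → False) →
      ∃ z a b c d e f V, Spc T z a b c d e f V)
    (hD : ∀ U T z a b c d e f V, DBlk U T z a b c d e f V → False)
    {ι κ : Type*} {g : ι → ℝ → EuclideanSpace ℝ (Fin 2)}
    {G : κ → Set (EuclideanSpace ℝ (Fin 2))} (h : PlMap g G) (c : κ → Fin 6) :
    ∃ f f', c f = c f' ∧ ∃ x ∈ G f, ∃ y ∈ G f', dist x y = 1 := by
  by_contra hcon
  push Not at hcon
  obtain ⟨U, T, T', hU⟩ := PlMap.exists_pr h6 h c hcon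
  have hX' := hX U T' hU.cn hU.le'
  obtain ⟨z, a, b, c', d, e, f, V, S⟩ := red U T hU.fr.irr hU.fr.mn hU.le (hU.noX hX')
  obtain ⟨T'', hB⟩ := hU.dblk hX' S
  exact hD U T'' z a b c' d e f V hB

end Vale.Agent.P032.H355
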