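import Vale.Agent.P032X.H355.Frame

/-!
# P032: planar maps with Jordan arcs as edges

`PMap g G`: a locally finite planar map with the edges `g e` (arcs which meet only in end points) and
the faces `G f` (open, connected, locally finite); the inner points of an edge lie in the closures
of the same one or two faces.
`PMap.exists_frame`: from a colouring of the faces with six colours without unit distances inside
a colour one gets the frame `Irr U T`, `MnG U T`, with locally finite points with three colours and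
connected colours at every point.
-/

open Set Filter Topology Metric

noncomputable section

namespace Vale.Agent.P032.H355

open Vale.Agent.P032.Six

variable {k : ℕ} {ι κ : Type*}

/-- a locally finite planar map with edges `g e` and faces `G f` -/
structure PMap (g : ι → ℝ → ℂ) (G : κ → Set ℂ) : Prop where
  arcs : Arcs g
  isOpen : ∀ f, IsOpen (G f)
  conn : ∀ f, IsPreconnected (G f)
  lf : LocallyFinite G
  off : ∀ x, (∀ e, x ∉ g e '' Icc 0 1) → ∃ f, x ∈ G f
  two : ∀ e, ∃ a b, ∀ u ∈ Ioo (0 : ℝ) 1, ∀ f, g e u ∈ closure (G f) ↔ f = a ∨ f = b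

variable {g : ι → ℝ → ℂ} {G : κ → Set ℂ}

/-- the open sets of a colouring of the faces -/
def colV (G : κ → Set ℂ) (c : κ → Fin k) (i : Fin k) : Set ℂ := ⋃ f : {f // c f = i}, G f

theorem mem_colV {c : κ → Fin k} {i : Fin k} {x : ℂ} :
    x ∈ colV G c i ↔ ∃ f, c f = i ∧ x ∈ G f := by
  simp [colV]

theorem PMap.closure_colV (h : PMap g G) {c : κ → Fin k} {i : Fin k} {x : ℂ}
    (hx : x ∈ closure (colV G c i)) : ∃ f, c f = i ∧ x ∈ closure (G f) := by
  have h1 : LocallyFinite fun f : {f // c f = i} => G f :=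
    h.lf.comp_injective Subtype.val_injective
  rw [colV, h1.closure_iUnion] at hx
  obtain ⟨⟨f, hf⟩, hxf⟩ := mem_iUnion.1 hx
  exact ⟨f, hf, hxf⟩

theorem PMap.cover (h : PMap g G) (x : ℂ) : ∃ f, x ∈ closure (G f) := by
  by_cases hx : ∃ e, x ∈ g e '' Icc 0 1
  · obtain ⟨e, u, hu, rfl⟩ := hx
    obtain ⟨a, b, hab⟩ := h.two e
    refine ⟨a, ?_⟩
    have hc : ContinuousWithinAt (g e) (Ioo 0 1) u :=
      (h.arcs.cont e u hu).mono Ioo_subset_Icc_self
    have h2 : u ∈ closure (Ioo (0 : ℝ) 1) := by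
      rw [closure_Ioo zero_ne_one]
      exact hu
    have h3 := hc.mem_closure (t := closure (G a)) h2 fun t ht => (hab t ht a).2 (Or.inl rfl)
    rwa [closure_closure] at h3
  · push Not at hx
    obtain ⟨f, hf⟩ := h.off x hx
    exact ⟨f, subset_closure hf⟩

theorem PMap.exists_base (h : PMap g G) (c : κ → Fin k)
    (hc : ∀ f f', c f = c f' → ∀ x ∈ G f, ∀ y ∈ G f', dist x y ≠ 1) :
    ∃ pal : ι → Set (Fin k), Base g pal (colV G c) := by
  choose a b hab using h.two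
  have hcl : ∀ {f : κ} {x : ℂ}, x ∈ closure (G f) → x ∈ closure (colV G c (c f)) := by
    intro f x hx
    exact closure_mono (fun y hy => mem_colV.2 ⟨f, rfl, hy⟩) hx
  refine ⟨fun e => {c (a e), c (b e)}, h.arcs, fun i => isOpen_iUnion fun f => h.isOpen f,
    ?_, fun x hx => ?_, fun e u hu => ?_, fun e u hu i hi => ?_, fun e => ?_, fun x => ?_,
    fun e u hu i hi => ?_, fun i x r => ?_⟩
  · intro i x hx y hy
    obtain ⟨f, hf, hxf⟩ := mem_colV.1 hx
    obtain ⟨f', hf', hyf⟩ := mem_colV.1 hy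
    exact hc f f' (hf.trans hf'.symm) x hxf y hyf
  · obtain ⟨f, hf⟩ := h.off x hx
    exact ⟨c f, mem_colV.2 ⟨f, rfl, hf⟩⟩
  · have h1 := h.lf.closure.eventually_subset (fun f => isClosed_closure) (g e u)
    filter_upwards [h1, h.arcs.only hu] with w hw1 hw2
    by_cases hw : w ∈ g e '' Icc 0 1
    · exact Or.inl hw
    · right
      obtain ⟨f, hf⟩ := h.off w fun e' he' => by
        rw [hw2 e' he'] at he'
        exact hw he'
      have h3 := (hab e u hu f).1 (hw1 (subset_closure hf))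
      refine ⟨c f, ?_, mem_colV.2 ⟨f, rfl, hf⟩⟩
      rcases h3 with rfl | rfl
      · exact Or.inl rfl
      · exact Or.inr rfl
  · obtain ⟨f, rfl, hf⟩ := mem_colV.1 hi
    rcases (hab e u hu f).1 (subset_closure hf) with rfl | rfl
    · exact Or.inl rfl
    · exact Or.inr rfl
  · exact (Set.ncard_insert_le _ _).trans (by simp)
  · obtain ⟨f, hf⟩ := h.cover x
    exact closure_mono (subset_iUnion (colV G c) (c f)) (hcl hf)
  · rcases hi with rfl | hi
    · exact hcl ((hab e u hu _).2 (Or.inl rfl))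
    · rw [mem_singleton_iff] at hi
      subst hi
      exact hcl ((hab e u hu _).2 (Or.inr rfl))
  · have hfin := h.lf.finite_nonempty_inter_compact (isCompact_closedBall x r)
    refine ⟨G '' {f | c f = i ∧ (G f ∩ closedBall x r).Nonempty}, ?_, ?_, ?_⟩
    · exact (hfin.subset fun f hf => hf.2).image _
    · rintro _ ⟨f, ⟨hf, -⟩, rfl⟩
      exact ⟨h.conn f, fun y hy => mem_colV.2 ⟨f, hf, hy⟩⟩
    · rintro y ⟨hy, hyr⟩
      obtain ⟨f, hf, hyf⟩ := mem_colV.1 hy
      exact ⟨G f, ⟨f, ⟨hf, y, hyf, ball_subset_closedBall hyr⟩, rfl⟩, hyf⟩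

/-- **The frame of a six-coloured planar map.** -/
theorem PMap.exists_frame (h : PMap g G) (c : κ → Fin 6)
    (hc : ∀ f f', c f = c f' → ∀ x ∈ G f, ∀ y ∈ G f', dist x y ≠ 1) {C : Set ℂ} (hC : C.Finite) :
    ∃ U T T', (Irr U T ∧ MnG U T ∧ (∀ i, colV G c i ⊆ U i) ∧
      (∀ x, ∃ t ∈ 𝓝 x, ({y | y ∈ XX U ∧ 3 ≤ (T y).ncard} ∩ t).Finite) ∧
      ∀ x, ∀ i ∈ T x, Cn U x i) ∧ (Irr U T' ∧
      (∀ x, ∃ t ∈ 𝓝 x, ({y | y ∈ XX U ∧ 3 ≤ (T' y).ncard} ∩ t).Finite) ∧
      ∀ x, ∀ᶠ w in 𝓝 x, ∀ i ∈ T' w, Cnn U x w i) ∧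
      (∀ z, 4 ≤ (T z).ncard → (∀ᶠ w in 𝓝 z, T w = T' w) ∨ (T z).ncard < (T' z).ncard) ∧
      (∀ x ∈ XX U, T x ⊆ T' x) ∧
      (∀ z v, 4 ≤ (T z).ncard → 4 ≤ (T v).ncard → dist v z = 1 → ∀ c ∈ C,
        (∀ᶠ w in 𝓝 (z + (v - z) * c), T w = T' w) ∨
        (4 ≤ (T' (z + (v - z) * c)).ncard ∧
          (T (z + (v - z) * c)).ncard < (T' (z + (v - z) * c)).ncard)) ∧
      ∀ x, ∃ t ∈ 𝓝 x, ({y | y ∈ XX U ∧ T y ≠ T' y} ∩ t).Finite := by
  obtain ⟨pal, hb⟩ := h.exists_base c hc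
  exact H355.exists_frame hb hC

end Vale.Agent.P032.H355
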