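import Vale.Agent.P032X.H355.MapF

/-!
# P032: planar maps in the Euclidean plane

`PlMap g G`: a locally finite planar map with the edges `g e` and the faces `G f`.
-/

open Set Filter Topology Metric

noncomputable section

namespace Vale.Agent.P032.H355

open Vale.Agent.P032.Six

/-- a locally finite planar map with the edges `g e` and the faces `G f`: the edges are arcs which
meet only in end points, the faces are open and connected and cover the complement of the edges,
and the inner points of an edge are in the closures of the same one or two faces -/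
structure PlMap {ι κ : Type*} (g : ι → ℝ → EuclideanSpace ℝ (Fin 2))
    (G : κ → Set (EuclideanSpace ℝ (Fin 2))) : Prop where
  cont : ∀ e, ContinuousOn (g e) (Icc 0 1)
  lf_edges : LocallyFinite fun e => g e '' Icc 0 1
  inj : ∀ e e' u u', u ∈ Ioo (0 : ℝ) 1 → u' ∈ Icc (0 : ℝ) 1 → g e u = g e' u' → e = e' ∧ u = u'
  isOpen : ∀ f, IsOpen (G f)
  conn : ∀ f, IsPreconnected (G f)
  lf_faces : LocallyFinite G
  cover : ∀ x, (∀ e, x ∉ g e '' Icc 0 1) → ∃ f, x ∈ G f
  sides : ∀ e, ∃ a b, ∀ u ∈ Ioo (0 : ℝ) 1, ∀ f, g e u ∈ closure (G f) ↔ f = a ∨ f = b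

theorem PlMap.toPMap {ι κ : Type*} {g : ι → ℝ → EuclideanSpace ℝ (Fin 2)}
    {G : κ → Set (EuclideanSpace ℝ (Fin 2))} (h : PlMap g G)
    (φ : ℂ ≃ₗᵢ[ℝ] EuclideanSpace ℝ (Fin 2)) :
    PMap (fun e u => φ.symm (g e u)) (fun f => φ ⁻¹' G f) where
  arcs :=
    { cont := fun e => φ.symm.continuous.comp_continuousOn (h.cont e)
      lf := by
        have h1 := h.lf_edges.preimage_continuous φ.continuous
        refine h1.subset fun e => ?_
        rintro _ ⟨u, hu, rfl⟩
        exact ⟨u, hu, by simp⟩
      inj := fun e e' u u' hu hu' he => h.inj e e' u u' hu hu' (φ.symm.injective he) }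
  isOpen f := (h.isOpen f).preimage φ.continuous
  conn f := by
    have h1 : φ ⁻¹' G f = φ.symm '' G f := by
      ext x
      constructor
      · intro hx
        exact ⟨φ x, hx, by simp⟩
      · rintro ⟨y, hy, rfl⟩
        simpa using hy
    simp only [h1]
    exact (h.conn f).image _ φ.symm.continuous.continuousOn
  lf := h.lf_faces.preimage_continuous φ.continuous
  off x hx := by
    obtain ⟨f, hf⟩ := h.cover (φ x) fun e he => by
      obtain ⟨u, hu, hux⟩ := he
      exact hx e ⟨u, hu, by simp [hux]⟩
    exact ⟨f, hf⟩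
  two e := by
    obtain ⟨a, b, hab⟩ := h.sides e
    refine ⟨a, b, fun u hu f => ?_⟩
    rw [← hab u hu f]
    have h1 : closure (φ ⁻¹' G f) = φ ⁻¹' closure (G f) :=
      (φ.toHomeomorph.preimage_closure (G f)).symm
    simp only [h1, mem_preimage, φ.apply_symm_apply]

end Vale.Agent.P032.H355
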