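import Vale.Agent.P032X.H355.Four

/-!
# P032: top of the theorem for planar maps, from blocks about one centre in the connected frame

`MapPr.pairs_only`: in the connected frame the two-coloured points of the unit circle about the
two-pair point, whose colours are colours of the centre, carry one of the two pairs.
`no_map_of_Z`: no six-coloured planar map, from the blocks: no point with six colours, no point with
five colours, no two-pair point at distance one from a four-coloured point.
-/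

open Set Filter Topology Metric

noncomputable section

namespace Vale.Agent.P032.H355

open Vale.Agent.P032.Six

/-- the two-coloured points of the unit circle about `z`, with colours of `z`, carry `{a, b}` or
`{c, d}` -/
def Only (T : ℂ → Set (Fin 6)) (z : ℂ) (a b c d : Fin 6) : Prop :=
  ∀ p, dist p z = 1 → (T p).ncard = 2 → T p ⊆ T z → T p = {a, b} ∨ T p = {c, d}

/-- the two-coloured points of the unit circle about `z`, with colours of `z`, carry equal or disjoint
pairs -/
def Pd (T : ℂ → Set (Fin 6)) (z : ℂ) : Prop :=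
  ∀ p q, dist p z = 1 → dist q z = 1 → (T p).ncard = 2 → (T q).ncard = 2 → T p ⊆ T z → T q ⊆ T z →
    T p = T q ∨ Disjoint (T p) (T q)

theorem dpt_card {T : ℂ → Set (Fin 6)} {z : ℂ} {a b c d : Fin 6} (hz : DPt T z a b c d) :
    (T z).ncard = 4 := by
  rw [hz.pal, Set.ncard_eq_toFinset_card']
  have e1 := hz.ab; have e2 := hz.ac; have e3 := hz.ad; have e4 := hz.bc; have e5 := hz.bd
  have e6 := hz.cd
  simp [e1, e2, e3, e4, e5, e6]

namespace MapPr

variable {U : Fin 6 → Set ℂ} {T T' : ℂ → Set (Fin 6)}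

/-- the palette of a two-pair point is the same in both frames, if it has four colours in the
second frame -/
theorem dpt_eq (h : MapPr U T T') {z : ℂ} {a b c d : Fin 6} (hz : DPt T z a b c d)
    (h4 : (T' z).ncard ≤ 4) : T z = T' z := by
  have hc := dpt_card hz
  have hsub : T z ⊆ T' z := by
    rcases h.alt z hc.ge with h1 | h1
    · exact h1.self_of_nhds
    · omega
  exact Set.eq_of_subset_of_ncard_le hsub (by omega) (Set.toFinite _)

theorem pairs_only (h : MapPr U T T') {z : ℂ} {a b c d : Fin 6} (hz : DPt T z a b c d)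
    (h4 : (T' z).ncard ≤ 4) : Only T' z a b c d := by
  intro p hp h2 hsub
  have he := h.dpt_eq hz h4
  have hc := dpt_card hz
  have h1 := h.cn.irr.near_exact (z := z) (y := p) h2.le hsub
  obtain ⟨t, ht, hfin⟩ := h.df p
  obtain ⟨V, hV, hVs⟩ := mem_nhdsWithin_iff_exists_mem_nhds_inter.1 h1
  obtain ⟨q, hq, hqz, hqD⟩ := exists_off_finite hp hfin (inter_mem ht hV)
  have hTq' : T' q = T' p := hVs ⟨hq.2, hqz⟩
  obtain ⟨i, hi⟩ : (T' p).Nonempty := Set.nonempty_of_ncard_ne_zero (by omega)
  have hX : q ∈ XX U := h.cn.irr.mem_XX hqz (hTq' ▸ hi) (h.cn.irr.sub z (hsub hi))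
  have hTq : T q = T' p := by
    rw [← hTq']
    by_contra hne
    exact hqD ⟨⟨hX, hne⟩, hq.1⟩
  obtain ⟨r, hr, hrJ⟩ := hz.arc1
  have hTr : T r = {a, b} := hrJ.self_of_nhdsWithin hr
  have hab : ({a, b} : Set (Fin 6)) ⊆ T z := by
    rw [hz.pal]
    rintro i (rfl | rfl) <;> simp
  rcases h.fr.irr.pairs_disjoint h.fr.mn hc hqz hr (by rw [hTq, he]; exact hsub)
    (by rw [hTr]; exact hab) (by rw [hTq, h2]) (by rw [hTr]; exact Set.ncard_pair hz.ab)
    with h5 | h5
  · left
    rw [← hTq, h5, hTr]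
  · right
    rw [hTq, hTr] at h5
    have h6 : T' p ⊆ {c, d} := by
      intro i hi
      have h7 := hsub hi
      rw [← he, hz.pal] at h7
      have h8 := Set.disjoint_left.1 h5 hi
      simp only [mem_insert_iff, mem_singleton_iff, not_or] at h7 h8 ⊢
      rcases h7 with h7 | h7 | h7 | h7
      · exact absurd h7 h8.1
      · exact absurd h7 h8.2
      · exact Or.inl h7
      · exact Or.inr h7
    exact Set.eq_of_subset_of_ncard_le h6 (by rw [Set.ncard_pair hz.cd, h2]) (Set.toFinite _)

/-- a two-coloured point of a unit circle in the second frame gives one in the first frame -/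
theorem exact_pt (h : MapPr U T T') {z p : ℂ} (hp : dist p z = 1) (h2 : (T' p).ncard = 2)
    (hsub : T' p ⊆ T' z) : ∃ q, dist q z = 1 ∧ T q = T' p := by
  have h1 := h.cn.irr.near_exact (z := z) (y := p) h2.le hsub
  obtain ⟨t, ht, hfin⟩ := h.df p
  obtain ⟨V, hV, hVs⟩ := mem_nhdsWithin_iff_exists_mem_nhds_inter.1 h1
  obtain ⟨q, hq, hqz, hqD⟩ := exists_off_finite hp hfin (inter_mem ht hV)
  have hTq' : T' q = T' p := hVs ⟨hq.2, hqz⟩
  obtain ⟨i, hi⟩ : (T' p).Nonempty := Set.nonempty_of_ncard_ne_zero (by omega)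
  have hX : q ∈ XX U := h.cn.irr.mem_XX hqz (hTq' ▸ hi) (h.cn.irr.sub z (hsub hi))
  refine ⟨q, hqz, ?_⟩
  rw [← hTq']
  by_contra hne
  exact hqD ⟨⟨hX, hne⟩, hq.1⟩

/-- a point with four colours in both frames has the same palette in both frames, and the pairs of
its unit circle are equal or disjoint -/
theorem pd (h : MapPr U T T') {z : ℂ} (hz : (T z).ncard = 4) (h4 : (T' z).ncard ≤ 4) :
    T z = T' z ∧ Pd T' z := by
  have hsub : T z ⊆ T' z := by
    rcases h.alt z hz.ge with h1 | h1
    · exact h1.self_of_nhds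
    · omega
  have he : T z = T' z := Set.eq_of_subset_of_ncard_le hsub (by omega) (Set.toFinite _)
  refine ⟨he, fun p q hp hq hp2 hq2 hps hqs => ?_⟩
  obtain ⟨p', hp', hTp⟩ := h.exact_pt hp hp2 hps
  obtain ⟨q', hq', hTq⟩ := h.exact_pt hq hq2 hqs
  rw [← hTp, ← hTq]
  exact h.fr.irr.pairs_disjoint h.fr.mn hz hp' hq' (by rw [hTp, he]; exact hps)
    (by rw [hTq, he]; exact hqs) (by rw [hTp]; exact hp2) (by rw [hTq]; exact hq2)

/-- **The pair in the connected frame**, with the pairs of the unit circles -/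
theorem exists_pairZ (h : MapPr U T T') : ∃ z v, dist z v = 1 ∧ 4 ≤ (T' v).ncard ∧
    ((T' z).ncard = 5 ∨
      (∃ a b c d, DPt T' z a b c d ∧ Only T' z a b c d) ∧ (T' v).ncard = 4 ∧ Pd T' v) := by
  obtain ⟨z, v, hzv, hv, hz⟩ := h.exists_pair
  have hv' := h.le_of hv
  have hz4 : 4 ≤ (T z).ncard := by
    rcases hz with hz | ⟨a, b, c, d, hz⟩
    · omega
    · exact (dpt_card hz).ge
  have hz' := h.le_of hz4
  have h5 := h.le' z
  have h6 := h.le' v
  by_cases hz5 : (T' z).ncard = 5
  · exact ⟨z, v, hzv, by omega, Or.inl hz5⟩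
  by_cases hv5 : (T' v).ncard = 5
  · exact ⟨v, z, by rw [dist_comm]; exact hzv, by omega, Or.inl hv5⟩
  rcases hz with hz | ⟨a, b, c, d, hz⟩
  · omega
  · exact ⟨z, v, hzv, by omega, Or.inr ⟨⟨a, b, c, d, h.dpt hz (by omega),
      h.pairs_only hz (by omega)⟩, by omega, (h.pd (by omega) (by omega)).2⟩⟩

end MapPr

/-- **No six-coloured planar map, from blocks about one centre in the connected frame**: no point
with six colours; no point with five colours; no two-pair point (whose unit circle carries only the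
two pairs) at distance one from a four-coloured point, if all points have at most four colours -/
theorem no_map_of_Z (h6 : ∀ U T, MapC U T → ∀ z, ¬ ∀ i, i ∈ T z)
    (h5 : ∀ U T, MapC U T → (∀ z, (T z).ncard ≤ 5) → ∀ z, (T z).ncard ≠ 5)
    (hD : ∀ U T, MapC U T → (∀ z, (T z).ncard ≤ 4) → ∀ z a b c d, DPt T z a b c d →
      Only T z a b c d → ∀ v, dist z v = 1 → (T v).ncard = 4 → Pd T v → False)
    {ι κ : Type*} {g : ι → ℝ → EuclideanSpace ℝ (Fin 2)}
    {G : κ → Set (EuclideanSpace ℝ (Fin 2))} (h : PlMap g G) (c : κ → Fin 6) :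
    ∃ f f', c f = c f' ∧ ∃ x ∈ G f, ∃ y ∈ G f', dist x y = 1 := by
  by_contra hcon
  push Not at hcon
  obtain ⟨U, T, T', hU⟩ := PlMap.exists_pr h6 h c hcon
  have h5' := h5 U T' hU.cn hU.le'
  have h4' : ∀ z, (T' z).ncard ≤ 4 := fun z => by
    have h1 := hU.le' z
    have h2 := h5' z
    omega
  obtain ⟨z, v, hzv, hv, hz⟩ := hU.exists_pairZ
  rcases hz with hz | ⟨⟨a, b, c', d, hz, ho⟩, hv4, hvp⟩
  · exact h5' z hz
  · exact hD U T' hU.cn h4' z a b c' d hz ho v hzv hv4 hvp

/-- the form without the condition that all points have at most four colours: no point with at least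
four colours at distance one from a five-coloured point -/
theorem no_map_of_ZX (h6 : ∀ U T, MapC U T → ∀ z, ¬ ∀ i, i ∈ T z)
    (hX : ∀ U T, MapC U T → (∀ z, (T z).ncard ≤ 5) →
      ∀ z v, dist z v = 1 → (T z).ncard = 5 → 4 ≤ (T v).ncard → False)
    (hD : ∀ U T, MapC U T → (∀ z, (T z).ncard ≤ 5) → ∀ z a b c d, DPt T z a b c d →
      Only T z a b c d → ∀ v, dist z v = 1 → (T v).ncard = 4 → Pd T v → False)
    {ι κ : Type*} {g : ι → ℝ → EuclideanSpace ℝ (Fin 2)}
    {G : κ → Set (EuclideanSpace ℝ (Fin 2))} (h : PlMap g G) (c : κ → Fin 6) :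
    ∃ f f', c f = c f' ∧ ∃ x ∈ G f, ∃ y ∈ G f', dist x y = 1 := by
  by_contra hcon
  push Not at hcon
  obtain ⟨U, T, T', hU⟩ := PlMap.exists_pr h6 h c hcon
  obtain ⟨z, v, hzv, hv, hz⟩ := hU.exists_pairZ
  rcases hz with hz | ⟨⟨a, b, c', d, hz, ho⟩, hv4, hvp⟩
  · exact hX U T' hU.cn hU.le' z v hzv hz hv
  · exact hD U T' hU.cn hU.le' z a b c' d hz ho v hzv hv4 hvp

end Vale.Agent.P032.H355
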