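import Vale.Agent.P032X.H355.Z

/-!
# P032: the pair of the second block with the germs of both frames

`MapPr.noX` : if the connected frame has no five-coloured point at distance one from a point with at
least four colours, the minimal frame has none.
`MapPr.pair_near` : then for a two-pair point `z` of the minimal frame and a point `v` at distance one
with at least four colours both frames are equal near `z` and near `v`, `z` is a two-pair point of
the connected frame, whose unit circle carries only the two pairs, `v` has four colours and the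
pairs of its unit circle are equal or disjoint.
`MapPr.named` : at the points with integer coordinates in the frame of `z` and `v`, which have distance
one from a point with at least four colours, both frames are equal near the point, or the point has
four colours in the connected frame and less in the minimal one.
`no_map_of_K` : the theorem for planar maps from the two blocks, for any kind of pairs.
-/

open Set Filter Topology Metric

noncomputable section

namespace Vale.Agent.P032.H355

open Vale.Agent.P032.Six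

namespace MapPr

variable {U : Fin 6 → Set ℂ} {T T' : ℂ → Set (Fin 6)}

theorem noX (h : MapPr U T T')
    (hX : ∀ z v, dist z v = 1 → (T' z).ncard = 5 → 4 ≤ (T' v).ncard → False) :
    ∀ z v, dist z v = 1 → (T z).ncard = 5 → 4 ≤ (T v).ncard → False := by
  intro z v hzv hz hv
  have h1 := h.le_of (z := z) (by omega)
  have h2 := h.le_of hv
  have h3 := h.le' z
  exact hX z v hzv (by omega) (by omega)

/-- the pair in both frames -/
theorem pair_near (h : MapPr U T T')
    (hX : ∀ z v, dist z v = 1 → (T' z).ncard = 5 → 4 ≤ (T' v).ncard → False)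
    {z v : ℂ} {a b c d : Fin 6} (hzv : dist z v = 1) (hz : DPt T z a b c d)
    (hv : 4 ≤ (T v).ncard) :
    (∀ᶠ w in 𝓝 z, T w = T' w) ∧ (∀ᶠ w in 𝓝 v, T w = T' w) ∧ DPt T' z a b c d ∧
      Only T' z a b c d ∧ (T' v).ncard = 4 ∧ Pd T' v := by
  have hz4 := dpt_card hz
  have h1 := h.le_of hz4.ge
  have h2 := h.le_of hv
  have h3 := h.le' z
  have h4 := h.le' v
  have hz5 : (T' z).ncard ≠ 5 := fun h5 => hX z v hzv h5 (by omega)
  have hv5 : (T' v).ncard ≠ 5 := fun h5 => hX v z (by rw [dist_comm]; exact hzv) h5 (by omega)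
  refine ⟨h.eq_near hz4.ge (by omega), h.eq_near hv (by omega), h.dpt hz (by omega),
    h.pairs_only hz (by omega), by omega, (h.pd (by omega) (by omega)).2⟩

/-- the other points with integer coordinates -/
theorem named (h : MapPr U T T')
    (hX : ∀ z v, dist z v = 1 → (T' z).ncard = 5 → 4 ≤ (T' v).ncard → False)
    {z v y c' : ℂ} (hz : 4 ≤ (T z).ncard) (hv : 4 ≤ (T v).ncard) (hzv : dist v z = 1) {c : ℂ}
    (hc : c ∈ Cf) (hy : y = z + (v - z) * c) (hyc : dist y c' = 1) (hc' : 4 ≤ (T' c').ncard) :
    (∀ᶠ w in 𝓝 y, T w = T' w) ∨ ((T' y).ncard = 4 ∧ (T y).ncard < 4) := by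
  subst hy
  rcases h.nmd z v hz hv hzv c hc with h1 | ⟨h1, h2⟩
  · exact Or.inl h1
  · right
    have h3 := h.le' (z + (v - z) * c)
    have h4 : (T' (z + (v - z) * c)).ncard ≠ 5 := fun h5 => hX _ _ hyc h5 hc'
    exact ⟨by omega, by omega⟩

end MapPr

/-- **No six-coloured planar map**, from the block of the pairs and a block of two-pair points with a
four-coloured point at distance one of a given kind `K`; the kind is given in the minimal frame -/
theorem no_map_of_K (h6 : ∀ U T, MapC U T → ∀ z, ¬ ∀ i, i ∈ T z)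
    (hX : ∀ U T, MapC U T → (∀ z, (T z).ncard ≤ 5) →
      ∀ z v, dist z v = 1 → (T z).ncard = 5 → 4 ≤ (T v).ncard → False)
    (K : (ℂ → Set (Fin 6)) → ℂ → ℂ → Fin 6 → Fin 6 → Fin 6 → Fin 6 → Prop)
    (red : ∀ U T, Irr U T → Mn U T → (∀ z, (T z).ncard ≤ 5) →
      (∀ z v, dist z v = 1 → (T z).ncard = 5 → 4 ≤ (T v).ncard → False) →
      ∃ z v a b c d, DPt T z a b c d ∧ dist z v = 1 ∧ 4 ≤ (T v).ncard ∧ K T z v a b c d)
    (hD : ∀ U T T', MapPr U T T' →
      (∀ z v, dist z v = 1 → (T' z).ncard = 5 → 4 ≤ (T' v).ncard → False) →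
      ∀ z v a b c d, dist z v = 1 → DPt T z a b c d → DPt T' z a b c d → Only T' z a b c d →
      (T' v).ncard = 4 → Pd T' v → (∀ᶠ w in 𝓝 z, T w = T' w) → (∀ᶠ w in 𝓝 v, T w = T' w) →
      K T z v a b c d → False)
    {ι κ : Type*} {g : ι → ℝ → EuclideanSpace ℝ (Fin 2)}
    {G : κ → Set (EuclideanSpace ℝ (Fin 2))} (h : PlMap g G) (c : κ → Fin 6) :
    ∃ f f', c f = c f' ∧ ∃ x ∈ G f, ∃ y ∈ G f', dist x y = 1 := by
  by_contra hcon
  push Not at hcon
  obtain ⟨U, T, T', hU⟩ := PlMap.exists_pr h6 h c hcon
  have hX' := hX U T' hU.cn hU.le'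
  obtain ⟨z, v, a, b, c', d, hz, hzv, hv, hK⟩ := red U T hU.fr.irr hU.fr.mn hU.le (hU.noX hX')
  obtain ⟨h1, h2, h3, h4, h5, h6⟩ := hU.pair_near hX' hzv hz hv
  exact hD U T T' hU hX' z v a b c' d hzv hz h3 h4 h5 h6 h1 h2 hK

end Vale.Agent.P032.H355
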